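import Vale.Agent.P235.K5.H12.Int

/-!
P235, K5 line, row [SPLIT] (helper803).  Every finite graph is a sum, over cliques with at most `k`
vertices, of induced subgraphs without a separating clique with at most `k` vertices, rooted at any
given clique with at most `k` vertices.
-/

set_option autoImplicit false
set_option linter.all false

namespace Vale.Agent.P235.K5.H803

open SimpleGraph

variable {V : Type}

/-- no clique with at most `k` vertices separates -/
def NoSep (k : ℕ) {V : Type} (G : SimpleGraph V) : Prop :=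
  ∀ X : Set V, X.ncard ≤ k → (∀ u ∈ X, ∀ v ∈ X, u ≠ v → G.Adj u v) → (G.induce Xᶜ).Preconnected

/-- connected sets -/
theorem preconn_iff {G : SimpleGraph V} {S : Set V} : (G.induce S).Preconnected ↔
    ∀ P ⊆ S, P.Nonempty → (∀ u ∈ P, ∀ v ∈ S, G.Adj u v → v ∈ P) → P = S := by
  constructor
  · intro h P hPS ⟨p, hp⟩ hcl
    refine hPS.antisymm fun v hv => ?_
    obtain ⟨w⟩ := h ⟨p, hPS hp⟩ ⟨v, hv⟩
    have key : ∀ (a b : S), (G.induce S).Walk a b → a.1 ∈ P → b.1 ∈ P := by
      intro a b w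
      induction w with
      | nil => exact id
      | cons hab _ ih => exact fun ha => ih (hcl _ ha _ (Subtype.property _) hab)
    exact key _ _ w hp
  · intro h a b
    have hP := h {v | ∃ hv : v ∈ S, (G.induce S).Reachable a ⟨v, hv⟩} (fun v hv => hv.1)
      ⟨a.1, a.2, Reachable.refl _⟩ (by
        rintro u ⟨hu, hr⟩ v hv hadj
        have : (G.induce S).Adj ⟨u, hu⟩ ⟨v, hv⟩ := hadj
        exact ⟨hv, hr.trans this.reachable⟩)
    have hb : b.1 ∈ {v | ∃ hv : v ∈ S, (G.induce S).Reachable a ⟨v, hv⟩} := by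
      rw [hP]; exact b.2
    obtain ⟨_, hr⟩ := hb
    exact hr

theorem conn_iff {G : SimpleGraph V} {S : Set V} : (G.induce S).Connected ↔ S.Nonempty ∧
    ∀ P ⊆ S, P.Nonempty → (∀ u ∈ P, ∀ v ∈ S, G.Adj u v → v ∈ P) → P = S := by
  rw [connected_iff, preconn_iff, Set.nonempty_coe_sort, and_comm]

/-- the splitting, inside the set `W` -/
theorem split_aux [Finite V] (H : SimpleGraph V) (k : ℕ) : ∀ m : ℕ, ∀ W : Set V, W.ncard ≤ m →
    W.Nonempty → ∀ X ⊆ W, X.ncard ≤ k → (∀ u ∈ X, ∀ v ∈ X, u ≠ v → H.Adj u v) →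
    ∃ (n : ℕ) (B : ℕ → Set V), 0 < n ∧ X ⊆ B 0 ∧ (∀ t < n, B t ⊆ W) ∧
      (∀ v ∈ W, ∃ t, t < n ∧ v ∈ B t) ∧ (∀ t < n, (Adh B t).ncard ≤ k) ∧
      (∀ t < n, ∀ u ∈ Adh B t, ∀ v ∈ Adh B t, u ≠ v → H.Adj u v) ∧
      (∀ t < n, ∀ u v, u ∈ B t → u ∉ Bef B t → v ∈ Bef B t → v ∉ B t → ¬ H.Adj u v) ∧
      (∀ t < n, (B t).Nonempty) ∧
      ∀ t < n, ∀ Y ⊆ B t, Y.ncard ≤ k → (∀ u ∈ Y, ∀ v ∈ Y, u ≠ v → H.Adj u v) →
        ∀ P ⊆ B t \ Y, P.Nonempty → (∀ u ∈ P, ∀ v ∈ B t \ Y, H.Adj u v → v ∈ P) →
          P = B t \ Y := by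
  intro m
  induction m with
  | zero =>
    intro W hW hne
    exfalso
    have := (Set.ncard_pos (Set.toFinite W)).2 hne
    omega
  | succ m ih =>
    intro W hW hne X hXW hXk hXc
    by_cases hsep : ∀ Y ⊆ W, Y.ncard ≤ k → (∀ u ∈ Y, ∀ v ∈ Y, u ≠ v → H.Adj u v) →
        ∀ P ⊆ W \ Y, P.Nonempty → (∀ u ∈ P, ∀ v ∈ W \ Y, H.Adj u v → v ∈ P) → P = W \ Y
    · have hAdh : ∀ t < 1, Adh (fun _ : ℕ => W) t = ∅ := by
        intro t ht
        ext v
        simp only [Adh, Bef, Set.mem_setOf_eq, Set.mem_empty_iff_false, iff_false, not_and,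
          not_exists]
        intro _ s hs
        omega
      refine ⟨1, fun _ => W, one_pos, hXW, fun _ _ => le_rfl, fun v hv => ⟨0, one_pos, hv⟩,
        fun t ht => ?_, fun t ht u hu => ?_, fun t ht u v _ _ hv => ?_, fun _ _ => hne,
        fun _ _ => hsep⟩
      · rw [hAdh t ht]; simp
      · rw [hAdh t ht] at hu; exact hu.elim
      · obtain ⟨s, hs, _⟩ := hv
        omega
    · push Not at hsep
      obtain ⟨Y, hYW, hYk, hYc, P, hPW, hPne, hPcl, hPneq⟩ := hsep
      -- the other side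
      obtain ⟨Q, hQ⟩ : ∃ Q : Set V, Q = (W \ Y) \ P := ⟨_, rfl⟩
      have hQne : Q.Nonempty := by
        by_contra h
        rw [Set.not_nonempty_iff_eq_empty] at h
        apply hPneq
        refine hPW.antisymm fun v hv => ?_
        by_contra hvP
        have : v ∈ Q := by rw [hQ]; exact ⟨hv, hvP⟩
        rw [h] at this
        exact this
      have hPQ : ∀ u ∈ P, ∀ v ∈ Q, ¬ H.Adj u v := by
        intro u hu v hv hadj
        rw [hQ] at hv
        exact hv.2 (hPcl u hu v hv.1 hadj)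
      have hcov : ∀ v ∈ W, v ∈ P ∨ v ∈ Y ∨ v ∈ Q := by
        intro v hv
        by_cases h1 : v ∈ Y
        · exact Or.inr (Or.inl h1)
        · by_cases h2 : v ∈ P
          · exact Or.inl h2
          · right; right; rw [hQ]; exact ⟨⟨hv, h1⟩, h2⟩
      have hQW : Q ⊆ W \ Y := by rw [hQ]; exact Set.diff_subset
      have hPQd : ∀ v ∈ P, v ∉ Q := by
        intro v hv h
        rw [hQ] at h
        exact h.2 hv
      -- general step
      have step : ∀ P Q : Set V, P ⊆ W \ Y → Q ⊆ W \ Y → P.Nonempty → Q.Nonempty →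
          (∀ v ∈ P, v ∉ Q) → (∀ v ∈ W, v ∈ P ∨ v ∈ Y ∨ v ∈ Q) →
          (∀ u ∈ P, ∀ v ∈ Q, ¬ H.Adj u v) → X ⊆ P ∪ Y → ∃ (n : ℕ) (B : ℕ → Set V), 0 < n ∧ X ⊆ B 0 ∧ (∀ t < n, B t ⊆ W) ∧
      (∀ v ∈ W, ∃ t, t < n ∧ v ∈ B t) ∧ (∀ t < n, (Adh B t).ncard ≤ k) ∧
      (∀ t < n, ∀ u ∈ Adh B t, ∀ v ∈ Adh B t, u ≠ v → H.Adj u v) ∧
      (∀ t < n, ∀ u v, u ∈ B t → u ∉ Bef B t → v ∈ Bef B t → v ∉ B t → ¬ H.Adj u v) ∧
      (∀ t < n, (B t).Nonempty) ∧
      ∀ t < n, ∀ Y ⊆ B t, Y.ncard ≤ k → (∀ u ∈ Y, ∀ v ∈ Y, u ≠ v → H.Adj u v) →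
        ∀ P ⊆ B t \ Y, P.Nonempty → (∀ u ∈ P, ∀ v ∈ B t \ Y, H.Adj u v → v ∈ P) →
          P = B t \ Y := by
        clear hPW hPne hPcl hPneq hQ hQne hPQ hcov hQW hPQd P Q
        intro P Q hPW hQW hPne hQne hPQd hcov hPQ hXP
        have hW1 : P ∪ Y ⊆ W := Set.union_subset (fun v hv => (hPW hv).1) hYW
        have hW2 : Q ∪ Y ⊆ W := Set.union_subset (fun v hv => (hQW hv).1) hYW
        have hc1 : (P ∪ Y).ncard ≤ m := by
          have : (P ∪ Y).ncard < W.ncard := by
            refine Set.ncard_lt_ncard ⟨hW1, fun h => ?_⟩ (Set.toFinite W)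
            obtain ⟨q, hq⟩ := hQne
            rcases h (hQW hq).1 with h1 | h1
            · exact hPQd q h1 hq
            · exact (hQW hq).2 h1
          omega
        have hc2 : (Q ∪ Y).ncard ≤ m := by
          have : (Q ∪ Y).ncard < W.ncard := by
            refine Set.ncard_lt_ncard ⟨hW2, fun h => ?_⟩ (Set.toFinite W)
            obtain ⟨q, hq⟩ := hPne
            rcases h (hPW hq).1 with h1 | h1
            · exact hPQd q hq h1
            · exact (hPW hq).2 h1
          omega
        obtain ⟨n1, B1, hn1, hX1, hs1, hv1, hk1, hq1, he1, hz1, ha1⟩ :=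
          ih (P ∪ Y) hc1 (hPne.mono Set.subset_union_left) X hXP hXk hXc
        obtain ⟨n2, B2, hn2, hX2, hs2, hv2, hk2, hq2, he2, hz2, ha2⟩ :=
          ih (Q ∪ Y) hc2 (hQne.mono Set.subset_union_left) Y Set.subset_union_right hYk hYc
        obtain ⟨B, hB⟩ : ∃ B : ℕ → Set V, B = fun t => if t < n1 then B1 t else B2 (t - n1) :=
          ⟨_, rfl⟩
        have hBl : ∀ t < n1, B t = B1 t := by
          intro t ht; rw [hB]; simp [ht]
        have hBr : ∀ j, B (n1 + j) = B2 j := by
          intro j; rw [hB]; simp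
        have hbl : ∀ t ≤ n1, Bef B t = Bef B1 t := by
          intro t ht
          ext v
          constructor
          · rintro ⟨s, hs, h⟩
            rw [hBl s (by omega)] at h
            exact ⟨s, hs, h⟩
          · rintro ⟨s, hs, h⟩
            refine ⟨s, hs, ?_⟩
            rw [hBl s (by omega)]
            exact h
        have hbr : ∀ j, ∀ v, v ∈ Bef B (n1 + j) ↔ v ∈ P ∪ Y ∨ v ∈ Bef B2 j := by
          intro j v
          constructor
          · rintro ⟨s, hs, h⟩
            by_cases hs1' : s < n1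
            · rw [hBl s hs1'] at h
              exact Or.inl (hs1 s hs1' h)
            · right
              obtain ⟨i, rfl⟩ : ∃ i, s = n1 + i := ⟨s - n1, by omega⟩
              rw [hBr] at h
              exact ⟨i, by omega, h⟩
          · rintro (h | ⟨s, hs, h⟩)
            · obtain ⟨t, ht, h1⟩ := hv1 v h
              exact ⟨t, by omega, by rw [hBl t ht]; exact h1⟩
            · exact ⟨n1 + s, by omega, by rw [hBr]; exact h⟩
        have hadl : ∀ t < n1, Adh B t = Adh B1 t := by
          intro t ht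
          ext v
          change (v ∈ B t ∧ v ∈ Bef B t) ↔ (v ∈ B1 t ∧ v ∈ Bef B1 t)
          rw [hBl t ht, hbl t ht.le]
        have hYmem : ∀ v, v ∈ P ∪ Y → v ∈ Q ∪ Y → v ∈ Y := by
          rintro v (h1 | h1) (h2 | h2)
          · exact (hPQd v h1 h2).elim
          · exact h2
          · exact h1
          · exact h1
        have hadr0 : Adh B (n1 + 0) = Y := by
          ext v
          change (v ∈ B (n1 + 0) ∧ v ∈ Bef B (n1 + 0)) ↔ v ∈ Y
          rw [hBr, hbr]
          constructor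
          · rintro ⟨h1, h2 | ⟨s, hs, _⟩⟩
            · exact hYmem v h2 (hs2 0 hn2 h1)
            · omega
          · intro h
            exact ⟨hX2 h, Or.inl (Or.inr h)⟩
        have hadr : ∀ j, 0 < j → j < n2 → Adh B (n1 + j) = Adh B2 j := by
          intro j hj hjn
          ext v
          change (v ∈ B (n1 + j) ∧ v ∈ Bef B (n1 + j)) ↔ (v ∈ B2 j ∧ v ∈ Bef B2 j)
          rw [hBr, hbr]
          constructor
          · rintro ⟨h1, h2 | h2⟩
            · exact ⟨h1, 0, hj, hX2 (hYmem v h2 (hs2 j hjn h1))⟩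
            · exact ⟨h1, h2⟩
          · rintro ⟨h1, h2⟩
            exact ⟨h1, Or.inr h2⟩
        have cases' : ∀ t < n1 + n2, t < n1 ∨ ∃ j, j < n2 ∧ t = n1 + j := by
          intro t ht
          by_cases h : t < n1
          · exact Or.inl h
          · exact Or.inr ⟨t - n1, by omega, by omega⟩
        refine ⟨n1 + n2, B, by omega, ?_, ?_, ?_, ?_, ?_, ?_, ?_, ?_⟩
        · rw [hBl 0 hn1]; exact hX1
        · intro t ht
          rcases cases' t ht with h | ⟨j, hj, rfl⟩
          · rw [hBl t h]; exact (hs1 t h).trans hW1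
          · rw [hBr]; exact (hs2 j hj).trans hW2
        · intro v hv
          rcases hcov v hv with h | h | h
          · obtain ⟨t, ht, h1⟩ := hv1 v (Or.inl h)
            exact ⟨t, by omega, by rw [hBl t ht]; exact h1⟩
          · obtain ⟨t, ht, h1⟩ := hv1 v (Or.inr h)
            exact ⟨t, by omega, by rw [hBl t ht]; exact h1⟩
          · obtain ⟨t, ht, h1⟩ := hv2 v (Or.inl h)
            exact ⟨n1 + t, by omega, by rw [hBr]; exact h1⟩
        · intro t ht
          rcases cases' t ht with h | ⟨j, hj, rfl⟩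
          · rw [hadl t h]; exact hk1 t h
          · rcases Nat.eq_zero_or_pos j with rfl | hj0
            · rw [hadr0]; exact hYk
            · rw [hadr j hj0 hj]; exact hk2 j hj
        · intro t ht
          rcases cases' t ht with h | ⟨j, hj, rfl⟩
          · rw [hadl t h]; exact hq1 t h
          · rcases Nat.eq_zero_or_pos j with rfl | hj0
            · rw [hadr0]; exact hYc
            · rw [hadr j hj0 hj]; exact hq2 j hj
        · intro t ht u v hu hub hv hvb
          rcases cases' t ht with h | ⟨j, hj, rfl⟩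
          · rw [hBl t h] at hu hvb
            rw [hbl t h.le] at hub hv
            exact he1 t h u v hu hub hv hvb
          · rw [hBr] at hu hvb
            rw [hbr] at hub hv
            push Not at hub
            by_cases hv2' : v ∈ Bef B2 j
            · exact he2 j hj u v hu hub.2 hv2' hvb
            · have hv3 : v ∈ P ∪ Y := hv.resolve_right hv2'
              have hvY : v ∉ Y := by
                intro hvY
                rcases Nat.eq_zero_or_pos j with rfl | hj0
                · exact hvb (hX2 hvY)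
                · exact hv2' ⟨0, hj0, hX2 hvY⟩
              have hvP : v ∈ P := hv3.resolve_right hvY
              have huQ : u ∈ Q := (hs2 j hj hu).resolve_right fun h => hub.1 (Or.inr h)
              intro hadj
              exact hPQ v hvP u huQ hadj.symm
        · intro t ht
          rcases cases' t ht with h | ⟨j, hj, rfl⟩
          · rw [hBl t h]; exact hz1 t h
          · rw [hBr]; exact hz2 j hj
        · intro t ht
          rcases cases' t ht with h | ⟨j, hj, rfl⟩
          · rw [hBl t h]; exact ha1 t h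
          · rw [hBr]; exact ha2 j hj
      -- `X` is on one of the sides
      by_cases hXP : X ⊆ P ∪ Y
      · exact step P Q hPW hQW hPne hQne hPQd hcov hPQ hXP
      · have hXQ : X ⊆ Q ∪ Y := by
          rw [Set.not_subset] at hXP
          obtain ⟨x, hx, hxP⟩ := hXP
          have hxQ : x ∈ Q := by
            rcases hcov x (hXW hx) with h | h | h
            · exact (hxP (Or.inl h)).elim
            · exact (hxP (Or.inr h)).elim
            · exact h
          intro y hy
          rcases hcov y (hXW hy) with h | h | h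
          · exfalso
            have hne' : y ≠ x := by
              rintro rfl
              exact hPQd y h hxQ
            exact hPQ y h x hxQ (hXc y hy x hx hne')
          · exact Or.inr h
          · exact Or.inl h
        exact step Q P hQW hPW hQne hPne (fun v hv h => hPQd v h hv)
          (fun v hv => by rcases hcov v hv with h | h | h <;> tauto)
          (fun u hu v hv h => hPQ v hv u hu h.symm) hXQ

/-- [SPLIT] -/
theorem split (k : ℕ) [Finite V] [Nonempty V] (H : SimpleGraph V) (X : Set V) (hX : X.ncard ≤ k)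
    (hc : ∀ u ∈ X, ∀ v ∈ X, u ≠ v → H.Adj u v) :
    ∃ (n : ℕ) (B : ℕ → Set V), 0 < n ∧ X ⊆ B 0 ∧ Glued k H n B ∧ (∀ t < n, (B t).Nonempty) ∧
      ∀ t < n, NoSep k (H.induce (B t)) := by
  obtain ⟨n, B, hn, hX0, hs, hv, hk, hq, he, hz, ha⟩ :=
    split_aux H k (Set.univ : Set V).ncard Set.univ le_rfl Set.univ_nonempty X
      (Set.subset_univ _) hX hc
  refine ⟨n, B, hn, hX0, ⟨fun v => hv v trivial, hk, hq, he⟩, hz, fun t ht Y hY hYc => ?_⟩
  rw [preconn_iff]
  intro P hP hPne hPcl
  have h1 := ha t ht (Subtype.val '' Y) (by rintro _ ⟨y, _, rfl⟩; exact y.2)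
    ((Set.ncard_image_le (Set.toFinite Y)).trans hY) (by
      rintro _ ⟨u, hu, rfl⟩ _ ⟨v, hv', rfl⟩ hne
      exact hYc u hu v hv' fun h => hne (by rw [h]))
    (Subtype.val '' P) (by
      rintro _ ⟨p, hp, rfl⟩
      refine ⟨p.2, ?_⟩
      rintro ⟨y, hy, hyp⟩
      have : y = p := Subtype.ext hyp
      exact hP hp (this ▸ hy)) (hPne.image _) (by
      rintro _ ⟨u, hu, rfl⟩ v ⟨hvB, hvY⟩ hadj
      exact ⟨⟨v, hvB⟩, hPcl u hu ⟨v, hvB⟩ (fun h => hvY ⟨_, h, rfl⟩) hadj, rfl⟩)
  refine hP.antisymm fun v hv' => ?_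
  have h2 : (v : V) ∈ Subtype.val '' P := by
    rw [h1]
    refine ⟨v.2, ?_⟩
    rintro ⟨y, hy, hyv⟩
    have : y = v := Subtype.ext hyv
    exact hv' (this ▸ hy)
  obtain ⟨p, hp, hpv⟩ := h2
  have : p = v := Subtype.ext hpv
  exact this ▸ hp

end Vale.Agent.P235.K5.H803
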