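import Vale.Agent.P235.K5.H803.Split
import Vale.Agent.P235.H105.W.Fin

/-!
P235, K5 line (helper803).  The treewidth of a sum over a clique of two induced subgraphs.
-/

set_option autoImplicit false
set_option linter.all false

namespace Vale.Agent.P235.K5.H803

open SimpleGraph Vale.Agent.P235 Vale.Agent.P235.H786

variable {V : Type}

/-- treewidth in both sides of a clique -/
theorem tw_two [Finite V] {G : SimpleGraph V} {A B : Set V} {k : ℕ} (hAB : ∀ v, v ∈ A ∨ v ∈ B)
    (hs : ∀ u v, u ∈ A → u ∉ B → v ∈ B → v ∉ A → ¬ G.Adj u v)
    (hc : ∀ u ∈ A ∩ B, ∀ v ∈ A ∩ B, u ≠ v → G.Adj u v)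
    (hA : TreewidthLE (G.induce A) k) (hB : TreewidthLE (G.induce B) k) : TreewidthLE G k := by
  have hadj : ∀ a b : Bool, (⊤ : SimpleGraph Bool).Adj a b ↔ a ≠ b := fun a b => Iff.rfl
  have dec : ∀ x z a b : Bool, x ≠ z → a ≠ b → s(x, z) = s(a, b) := by decide
  refine Vale.Agent.P235.H105.W.glueStmt V Bool G ⊤ (fun t => if t then A else B) k
    ⟨?_, ?_, ?_, ?_⟩ ?_
  · -- a tree
    refine ⟨⟨fun a b => ?_⟩, ?_⟩
    · by_cases h : a = b
      · rw [h]
      · exact (show (⊤ : SimpleGraph Bool).Adj a b from h).reachable
    · rw [isAcyclic_iff_forall_adj_isBridge]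
      intro a b hab
      rw [isBridge_iff]
      intro hr
      have key : ∀ x y : Bool, ((⊤ : SimpleGraph Bool) \ fromEdgeSet {s(a, b)}).Walk x y →
          x = y := by
        intro x y w
        induction w with
        | nil => rfl
        | @cons x z y hxz _ ih =>
          exfalso
          rw [sdiff_adj, fromEdgeSet_adj] at hxz
          obtain ⟨h1, h2⟩ := hxz
          have hne : x ≠ z := h1
          apply h2
          refine ⟨?_, hne⟩
          have hab' : a ≠ b := hab
          rw [Set.mem_singleton_iff]
          exact dec x z a b hne hab'
      obtain ⟨w⟩ := hr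
      exact hab.ne (key a b w)
  · intro v
    rcases hAB v with h | h
    · exact ⟨true, by simpa using h⟩
    · exact ⟨false, by simpa using h⟩
  · intro u v huv
    by_cases huA : u ∈ A
    · by_cases hvA : v ∈ A
      · exact ⟨true, by simpa using huA, by simpa using hvA⟩
      · have hvB := (hAB v).resolve_left hvA
        by_cases huB : u ∈ B
        · exact ⟨false, by simpa using huB, by simpa using hvB⟩
        · exact (hs u v huA huB hvB hvA huv).elim
    · have huB := (hAB u).resolve_left huA
      by_cases hvB : v ∈ B
      · exact ⟨false, by simpa using huB, by simpa using hvB⟩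
      · exact (hs v u ((hAB v).resolve_right hvB) hvB huB huA huv.symm).elim
  · intro v a b
    by_cases h : a = b
    · rw [h]
    · exact (show (((⊤ : SimpleGraph Bool)).induce _).Adj a b from
        fun e => h (Subtype.ext e)).reachable
  · intro t
    have htor : ∀ t, (tor G (⊤ : SimpleGraph Bool) (fun t => if t then A else B) t).induce
        (if t then A else B) = G.induce (if t then A else B) := by
      intro t
      ext x y
      constructor
      · rintro ⟨hne, hx, hy, h1 | ⟨s, hts, h1, h2⟩⟩
        · exact h1
        · have hst : s ≠ t := fun e => hts e.symm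
          have hne' : (x : V) ≠ (y : V) := hne
          cases t
          · cases s
            · exact (hst rfl).elim
            · have a1 : (x : V) ∈ A := by simpa using h1
              have a2 : (y : V) ∈ A := by simpa using h2
              have a3 : (x : V) ∈ B := by simpa using hx
              have a4 : (y : V) ∈ B := by simpa using hy
              exact hc x ⟨a1, a3⟩ y ⟨a2, a4⟩ hne'
          · cases s
            · have a1 : (x : V) ∈ B := by simpa using h1
              have a2 : (y : V) ∈ B := by simpa using h2
              have a3 : (x : V) ∈ A := by simpa using hx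
              have a4 : (y : V) ∈ A := by simpa using hy
              exact hc x ⟨a3, a1⟩ y ⟨a4, a2⟩ hne'
            · exact (hst rfl).elim
      · intro h1
        exact ⟨fun e => h1.ne (Subtype.ext e), x.2, y.2, Or.inl h1⟩
    change TreewidthLE ((tor G (⊤ : SimpleGraph Bool) (fun t => if t then A else B) t).induce
        (if t then A else B)) k
    rw [htor t]
    cases t
    · simpa using hB
    · simpa using hA

end Vale.Agent.P235.K5.H803
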