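import Vale.Agent.P235.K5.H803.Mix
import Vale.Agent.P235.K5.H803.TwSum
import Vale.Agent.P235.Comp.Final
import Vale.Agent.P235.H134.Grid.Assembly

/-!
P235, line SX, row [ANYK] (helper803).  Sums over cliques of any size of planar pieces and of pieces
of treewidth at most `w` are sums over cliques with at most three vertices of pieces of these two
kinds (treewidth at most `max w 3`).
-/

set_option autoImplicit false
set_option linter.all false

namespace Vale.Agent.P235.K5.H803

open SimpleGraph Vale.Agent.P235 Vale.Agent.P235.H134 Vale.Agent.P235.H56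
open Vale.Agent.P235.H341W (capG)

variable {V : Type}

/-- no clique with at most `k` vertices separates `S` (relative form) -/
def NS (k : ℕ) (H : SimpleGraph V) (S : Set V) : Prop :=
  ∀ Y ⊆ S, Y.ncard ≤ k → (∀ u ∈ Y, ∀ v ∈ Y, u ≠ v → H.Adj u v) →
    ∀ P ⊆ S \ Y, P.Nonempty → (∀ u ∈ P, ∀ v ∈ S \ Y, H.Adj u v → v ∈ P) → P = S \ Y

theorem exists_conn [Finite V] {H : SimpleGraph V} : ∀ m : ℕ, ∀ S : Set V, S.ncard ≤ m →
    S.Nonempty → ∃ C ⊆ S, (H.induce C).Connected ∧ ∀ u ∈ C, ∀ v ∈ S, H.Adj u v → v ∈ C := by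
  intro m
  induction m with
  | zero =>
    intro S hS hne
    exfalso
    have := (Set.ncard_pos (Set.toFinite S)).2 hne
    omega
  | succ m ih =>
    intro S hS hne
    by_cases h : ∀ P ⊆ S, P.Nonempty → (∀ u ∈ P, ∀ v ∈ S, H.Adj u v → v ∈ P) → P = S
    · exact ⟨S, le_rfl, conn_iff.2 ⟨hne, h⟩, fun u _ v hv _ => hv⟩
    · push Not at h
      obtain ⟨P, hPS, hPne, hPcl, hPn⟩ := h
      have hlt : P.ncard < S.ncard := Set.ncard_lt_ncard
        ⟨hPS, fun h => hPn (hPS.antisymm h)⟩ (Set.toFinite S)
      obtain ⟨C, hCP, hC, hCcl⟩ := ih P (by omega) hPne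
      exact ⟨C, hCP.trans hPS, hC, fun u hu v hv hadj =>
        hCcl u hu v (hPcl u (hCP hu) v hv hadj) hadj⟩

theorem conn_singleton {H : SimpleGraph V} (z : V) : (H.induce ({z} : Set V)).Connected := by
  rw [conn_iff]
  refine ⟨⟨z, rfl⟩, fun P hP ⟨p, hp⟩ _ => hP.antisymm fun v hv => ?_⟩
  have h1 : p = z := hP hp
  have h2 : v = z := hv
  rw [h2, ← h1]
  exact hp

/-- a graph without `K₅` minor and without separating clique with at most three vertices which
contains a `K₄` is a `K₄` -/
theorem k4_lemma [Finite V] {H : SimpleGraph V} {S Y : Set V} (hS : NS 3 H S) (hYS : Y ⊆ S)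
    (hYc : ∀ u ∈ Y, ∀ v ∈ Y, u ≠ v → H.Adj u v) (h4 : 4 ≤ Y.ncard) (hne : (S \ Y).Nonempty)
    (h5 : ¬ MinIn 5 H S) : False := by
  obtain ⟨Z, hZY, hZ⟩ := Set.exists_subset_card_eq h4
  have hne' : (S \ Z).Nonempty := by
    obtain ⟨x, hx, hxY⟩ := hne
    exact ⟨x, hx, fun h => hxY (hZY h)⟩
  obtain ⟨C, hCS, hC, hCcl⟩ := exists_conn (H := H) _ (S \ Z) le_rfl hne'
  have hCne : C.Nonempty := (conn_iff.1 hC).1
  have hz : ∀ z ∈ Z, ∃ c ∈ C, H.Adj z c := by
    intro z hzZ
    by_contra hno
    push Not at hno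
    have h1 := hS (Z \ {z}) (fun x hx => hYS (hZY hx.1)) (by
        have := Set.ncard_diff_singleton_of_mem hzZ
        omega) (fun u hu v hv huv => hYc u (hZY hu.1) v (hZY hv.1) huv) C
      (fun x hx => ⟨(hCS hx).1, fun h => (hCS hx).2 h.1⟩) hCne (by
        intro u hu v hv hadj
        by_cases hvz : v = z
        · subst hvz
          exact (hno u hu hadj.symm).elim
        · exact hCcl u hu v ⟨hv.1, fun h => hv.2 ⟨h, hvz⟩⟩ hadj)
    have h2 : z ∈ S \ (Z \ {z}) := ⟨hYS (hZY hzZ), fun h => h.2 rfl⟩
    rw [← h1] at h2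
    exact (hCS h2).2 hzZ
  have hcard : Nat.card Z = 4 := by rw [Nat.card_coe_set_eq]; exact hZ
  have e : Z ≃ Fin 4 := Finite.equivFinOfCardEq hcard
  apply h5
  refine ⟨Fin.cases C (fun i => {((e.symm i : Z) : V)}), ?_, ?_, ?_, ?_⟩
  · intro a
    refine Fin.cases ?_ (fun i => ?_) a
    · exact fun x hx => (hCS hx).1
    · rintro x hx
      have hx' : x = ((e.symm i : Z) : V) := hx
      rw [hx']
      exact hYS (hZY (e.symm i).2)
  · intro a
    refine Fin.cases ?_ (fun i => ?_) a
    · exact hC
    · exact conn_singleton _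
  · intro a b
    refine Fin.cases ?_ (fun i => ?_) a
    · refine Fin.cases ?_ (fun j => ?_) b
      · intro hab; exact (hab rfl).elim
      · intro _
        rw [Set.disjoint_left]
        intro x hx hx'
        have hx'' : x = ((e.symm j : Z) : V) := hx'
        rw [hx''] at hx
        exact (hCS hx).2 (e.symm j).2
    · refine Fin.cases ?_ (fun j => ?_) b
      · intro _
        rw [Set.disjoint_left]
        intro x hx' hx
        have hx'' : x = ((e.symm i : Z) : V) := hx'
        have hx2 : x ∈ C := hx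
        rw [hx''] at hx2
        exact (hCS hx2).2 (e.symm i).2
      · intro hab
        rw [Set.disjoint_left]
        intro x hx hx'
        have h1 : x = ((e.symm i : Z) : V) := hx
        have h2 : x = ((e.symm j : Z) : V) := hx'
        have h3 : e.symm i = e.symm j := Subtype.ext (h1.symm.trans h2)
        exact hab (congrArg Fin.succ (e.symm.injective h3))
  · intro a b
    refine Fin.cases ?_ (fun i => ?_) a
    · refine Fin.cases ?_ (fun j => ?_) b
      · intro hab; exact (hab rfl).elim
      · intro _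
        obtain ⟨c, hc, hadj⟩ := hz _ (e.symm j).2
        exact ⟨c, hc, _, rfl, hadj.symm⟩
    · refine Fin.cases ?_ (fun j => ?_) b
      · intro _
        obtain ⟨c, hc, hadj⟩ := hz _ (e.symm i).2
        exact ⟨_, rfl, c, hc, hadj⟩
      · intro hab
        refine ⟨_, rfl, _, rfl, hYc _ (hZY (e.symm i).2) _ (hZY (e.symm j).2) ?_⟩
        intro h
        exact hab (congrArg Fin.succ (e.symm.injective (Subtype.ext h)))

theorem anyK_aux [Finite V] {H : SimpleGraph V} {k n w : ℕ} {B : ℕ → Set V} (h : Glued k H n B)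
    (hp : ∀ t < n, (¬ IsMinor (⊤ : SimpleGraph (Fin 5)) (H.induce (B t)) ∧
      ¬ IsMinor K33 (H.induce (B t))) ∨ TreewidthLE (H.induce (B t)) w) :
    ∀ m : ℕ, ∀ W : Set V, W.ncard ≤ m → W.Nonempty → NS 3 H W →
      (∃ t < n, W ⊆ B t) ∨ TreewidthLE (H.induce W) (max w 3) := by
  intro m
  induction m with
  | zero =>
    intro W hW hne
    exfalso
    have := (Set.ncard_pos (Set.toFinite W)).2 hne
    omega
  | succ m ih =>
    intro W hW hne hW3
    by_cases hk : NS k H W
    · exact Or.inl (in_one_bag h hne (noSep_of_rel hk))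
    · right
      unfold NS at hk
      push Not at hk
      obtain ⟨Y, hYW, hYk, hYc, P, hPW, hPne, hPcl, hPneq⟩ := hk
      have h4 : 4 ≤ Y.ncard := by
        by_contra hlt
        exact hPneq (hW3 Y hYW (by omega) hYc P hPW hPne hPcl)
      obtain ⟨Q, hQ⟩ : ∃ Q : Set V, Q = (W \ Y) \ P := ⟨_, rfl⟩
      have hQne : Q.Nonempty := by
        by_contra h
        rw [Set.not_nonempty_iff_eq_empty] at h
        apply hPneq
        refine hPW.antisymm fun v hv => ?_
        by_contra hvP
        have : v ∈ Q := by rw [hQ]; exact ⟨hv, hvP⟩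
        rw [h] at this
        exact this
      have hPQ : ∀ u ∈ P, ∀ v ∈ Q, ¬ H.Adj u v := by
        intro u hu v hv hadj
        rw [hQ] at hv
        exact hv.2 (hPcl u hu v hv.1 hadj)
      have hcov : ∀ v ∈ W, v ∈ P ∨ v ∈ Y ∨ v ∈ Q := by
        intro v hv
        by_cases h1 : v ∈ Y
        · exact Or.inr (Or.inl h1)
        · by_cases h2 : v ∈ P
          · exact Or.inl h2
          · right; right; rw [hQ]; exact ⟨⟨hv, h1⟩, h2⟩
      have hQW : Q ⊆ W \ Y := by rw [hQ]; exact Set.diff_subset
      have hPQd : ∀ v ∈ P, v ∉ Q := by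
        intro v hv h
        rw [hQ] at h
        exact h.2 hv
      have side : ∀ P Q : Set V, P ⊆ W \ Y → Q ⊆ W \ Y → P.Nonempty → Q.Nonempty →
          (∀ v ∈ P, v ∉ Q) → (∀ v ∈ W, v ∈ P ∨ v ∈ Y ∨ v ∈ Q) →
          (∀ u ∈ P, ∀ v ∈ Q, ¬ H.Adj u v) → TreewidthLE (H.induce (P ∪ Y)) (max w 3) := by
        clear hPW hPne hPcl hPneq hQ hQne hPQ hcov hQW hPQd P Q
        intro P Q hPW hQW hPne hQne hPQd hcov hPQ
        have hW1 : P ∪ Y ⊆ W := Set.union_subset (fun v hv => (hPW hv).1) hYW
        have hc1 : (P ∪ Y).ncard ≤ m := by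
          have : (P ∪ Y).ncard < W.ncard := by
            refine Set.ncard_lt_ncard ⟨hW1, fun h => ?_⟩ (Set.toFinite W)
            obtain ⟨q, hq⟩ := hQne
            rcases h (hQW hq).1 with h1 | h1
            · exact hPQd q h1 hq
            · exact (hQW hq).2 h1
          omega
        have hns : NS 3 H (P ∪ Y) := by
          intro Z hZ hZ3 hZc P1 hP1 hP1ne hP1cl
          by_contra hne1
          have hYZ : ∃ y ∈ Y, y ∉ Z := by
            by_contra hno
            push Not at hno
            have := Set.ncard_le_ncard hno (Set.toFinite Z)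
            omega
          by_cases hy : ∃ y ∈ Y, y ∉ Z ∧ y ∈ P1
          · obtain ⟨y, hyY, hyZ, hyP⟩ := hy
            have hYP : ∀ v ∈ Y, v ∉ Z → v ∈ P1 := by
              intro v hv hvZ
              by_cases hvy : y = v
              · rw [← hvy]; exact hyP
              · exact hP1cl y hyP v ⟨Or.inr hv, hvZ⟩ (hYc y hyY v hv hvy)
            have h1 := hW3 Z (hZ.trans hW1) hZ3 hZc (P1 ∪ Q) (by
                rintro v (hv | hv)
                · exact ⟨hW1 (hP1 hv).1, (hP1 hv).2⟩
                · refine ⟨(hQW hv).1, fun hvZ => ?_⟩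
                  rcases hZ hvZ with h2 | h2
                  · exact hPQd v h2 hv
                  · exact (hQW hv).2 h2) (hP1ne.mono Set.subset_union_left) (by
                rintro u (hu | hu) v hv hadj
                · rcases hcov v hv.1 with h2 | h2 | h2
                  · exact Or.inl (hP1cl u hu v ⟨Or.inl h2, hv.2⟩ hadj)
                  · exact Or.inl (hP1cl u hu v ⟨Or.inr h2, hv.2⟩ hadj)
                  · exact Or.inr h2
                · rcases hcov v hv.1 with h2 | h2 | h2
                  · exact (hPQ v h2 u hu hadj.symm).elim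
                  · exact Or.inl (hYP v h2 hv.2)
                  · exact Or.inr h2)
            apply hne1
            refine hP1.antisymm fun v hv => ?_
            have h2 : v ∈ P1 ∪ Q := by
              rw [h1]; exact ⟨hW1 hv.1, hv.2⟩
            rcases h2 with h2 | h2
            · exact h2
            · exfalso
              rcases hv.1 with h3 | h3
              · exact hPQd v h3 h2
              · exact (hQW h2).2 h3
          · push Not at hy
            obtain ⟨y0, hy0, hy0Z⟩ := hYZ
            have h1 := hW3 Z (hZ.trans hW1) hZ3 hZc P1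
              (fun v hv => ⟨hW1 (hP1 hv).1, (hP1 hv).2⟩) hP1ne (by
                intro u hu v hv hadj
                rcases hcov v hv.1 with h2 | h2 | h2
                · exact hP1cl u hu v ⟨Or.inl h2, hv.2⟩ hadj
                · exact hP1cl u hu v ⟨Or.inr h2, hv.2⟩ hadj
                · exfalso
                  rcases (hP1 hu).1 with h3 | h3
                  · exact hPQ u h3 v h2 hadj
                  · exact hy u h3 (hP1 hu).2 hu)
            have h2 : y0 ∈ P1 := by
              rw [h1]; exact ⟨hYW hy0, hy0Z⟩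
            exact hy y0 hy0 hy0Z h2
        rcases ih (P ∪ Y) hc1 (hPne.mono Set.subset_union_left) hns with ⟨t, ht, hsub⟩ | h'
        · rcases hp t ht with ⟨h5, _⟩ | htw
          · exfalso
            refine k4_lemma hns Set.subset_union_right hYc h4 ?_
              (fun hm => h5 (minIn_iff.2 (hm.mono hsub)))
            obtain ⟨p, hpp⟩ := hPne
            exact ⟨p, Or.inl hpp, (hPW hpp).2⟩
          · refine Vale.Agent.P235.H134.treewidthLE_mono (le_max_left _ _) ?_
            exact htw.comap (fun x : (P ∪ Y : Set V) => (⟨x.1, hsub x.2⟩ : B t))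
              (fun x y hxy => Subtype.ext (congrArg (fun z : B t => (z : V)) hxy))
              (fun x y hxy => hxy)
        · exact h'
      have h1 := side P Q hPW hQW hPne hQne hPQd hcov hPQ
      have h2 := side Q P hQW hPW hQne hPne (fun v hv h => hPQd v h hv)
        (fun v hv => by rcases hcov v hv with h | h | h <;> tauto)
        (fun u hu v hv h => hPQ v hv u hu h.symm)
      refine tw_two (A := {x : W | (x : V) ∈ P ∪ Y}) (B := {x : W | (x : V) ∈ Q ∪ Y}) ?_ ?_ ?_
        ?_ ?_
      · intro x
        rcases hcov x x.2 with h | h | h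
        · exact Or.inl (Or.inl h)
        · exact Or.inl (Or.inr h)
        · exact Or.inr (Or.inl h)
      · intro u v hu huB hv hvA hadj
        have h3 : (u : V) ∈ P := by
          rcases hu with h | h
          · exact h
          · exact (huB (Or.inr h)).elim
        have h4' : (v : V) ∈ Q := by
          rcases hv with h | h
          · exact h
          · exact (hvA (Or.inr h)).elim
        exact hPQ u h3 v h4' hadj
      · rintro u ⟨hu1, hu2⟩ v ⟨hv1, hv2⟩ huv
        have hmem : ∀ x : V, x ∈ P ∪ Y → x ∈ Q ∪ Y → x ∈ Y := by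
          rintro x (hx | hx) (hx' | hx')
          · exact (hPQd x hx hx').elim
          · exact hx'
          · exact hx
          · exact hx
        exact hYc u (hmem u hu1 hu2) v (hmem v hv1 hv2) fun h => huv (Subtype.ext h)
      · exact h1.comap (fun x : ({x : W | (x : V) ∈ P ∪ Y} : Set W) =>
            (⟨x.1.1, x.2⟩ : (P ∪ Y : Set V)))
          (fun x y hxy => Subtype.ext (Subtype.ext
            (congrArg (fun z : (P ∪ Y : Set V) => (z : V)) hxy)))
          (fun x y hxy => hxy)
      · exact h2.comap (fun x : ({x : W | (x : V) ∈ Q ∪ Y} : Set W) =>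
            (⟨x.1.1, x.2⟩ : (Q ∪ Y : Set V)))
          (fun x y hxy => Subtype.ext (Subtype.ext
            (congrArg (fun z : (Q ∪ Y : Set V) => (z : V)) hxy)))
          (fun x y hxy => hxy)

/-- **[ANYK]** -/
theorem anyK [Finite V] {H : SimpleGraph V} {k n w : ℕ} {B : ℕ → Set V} (h : Glued k H n B)
    (hp : ∀ t < n, (¬ IsMinor (⊤ : SimpleGraph (Fin 5)) (H.induce (B t)) ∧
      ¬ IsMinor K33 (H.induce (B t))) ∨ TreewidthLE (H.induce (B t)) w) :
    ∃ (n' : ℕ) (B' : ℕ → Set V), Glued 3 H n' B' ∧ ∀ s < n',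
      ((H.induce (B' s)).Connected ∧
        ¬ IsMinor K33 (capG (H.induce (B' s)) {x | (x : V) ∈ Adh B' s})) ∨
      TreewidthLE (H.induce (B' s)) (max w 3) := by
  rcases isEmpty_or_nonempty V with hV | hV
  · exact ⟨0, fun _ => ∅, ⟨fun v => (hV.false v).elim, by omega, by omega, by omega⟩, by omega⟩
  · obtain ⟨m, C, hm, _, _, hv, hk, hq, he, hne, ha⟩ :=
      split_aux H 3 (Set.univ : Set V).ncard Set.univ le_rfl Set.univ_nonempty ∅
        (Set.empty_subset _) (by simp) (by simp)
    refine ⟨m, C, ⟨fun v => hv v trivial, hk, hq, he⟩, fun s hs => ?_⟩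
    rcases anyK_aux h hp _ (C s) le_rfl (hne s hs) (ha s hs) with ⟨t, ht, hsub⟩ | h'
    · rcases hp t ht with ⟨h5, h33⟩ | htw
      · left
        exact cap_of_noSep (hne s hs) (noSep_of_rel (ha s hs)) (hk s hs) (hq s hs)
          (fun hmin => h5 (minor_mono hsub hmin)) (fun hmin => h33 (minor_mono hsub hmin))
      · right
        refine Vale.Agent.P235.H134.treewidthLE_mono (le_max_left _ _) ?_
        exact htw.comap (fun x : C s => (⟨x.1, hsub x.2⟩ : B t))
          (fun x y hxy => Subtype.ext (congrArg (fun z : B t => (z : V)) hxy))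
          (fun x y hxy => hxy)
    · exact Or.inr h'

end Vale.Agent.P235.K5.H803
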