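import Vale.Agent.P235.K5.H803.CSum
import Vale.Agent.P235.H218.K5.Face

/-!
P235, K5 line (helper803).  Sums of `K₅`- and `K_{3,3}`-minor-free graphs over arbitrary cliques
with at most three vertices: no facial condition (no hypothesis left).
-/

set_option autoImplicit false
set_option linter.all false

namespace Vale.Agent.P235.K5.H803

open SimpleGraph Vale.Agent.P235 Vale.Agent.P235.H134 Vale.Agent.P235.H56
open Vale.Agent.P235.H341W (capG)

variable {V : Type}

theorem faceStmt : FaceStmt := fun _ _ _ _ hk hc hs h5 h33 =>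
  Vale.Agent.P235.H218K5.face' hc hk (fun _ => hs) (fun _ => h5) h33

/-- **[PLANAR-SUM]** -/
theorem planarSum [Finite V] {H : SimpleGraph V} {n : ℕ} {B : ℕ → Set V}
    (h : Glued 3 H n B) (h5 : ∀ t < n, ¬ IsMinor (⊤ : SimpleGraph (Fin 5)) (H.induce (B t)))
    (h33 : ∀ t < n, ¬ IsMinor K33 (H.induce (B t))) :
    CliqueSum 3 (fun V G R => G.Connected ∧ ¬ IsMinor K33 (capG G R)) H :=
  planar_sum faceStmt h h5 h33

end Vale.Agent.P235.K5.H803
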