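import Vale.Agent.P235.K5.H803.Fin

/-!
P235, K5 line, row [MIXSUM] (helper803).  Sums over cliques with at most three vertices of pieces of
any kind (kept with their roots) and of `K₅`- and `K_{3,3}`-minor-free pieces (split at all separating
cliques, rooted at their adhesion).
-/

set_option autoImplicit false
set_option linter.all false

namespace Vale.Agent.P235.K5.H803

open SimpleGraph Vale.Agent.P235 Vale.Agent.P235.H134 Vale.Agent.P235.H56
open Vale.Agent.P235.H341W (capG)

variable {V : Type}

/-- a prefix of the new sequence; `D` is the set of its vertices -/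
structure PrefQ (H : SimpleGraph V) (k : ℕ) (Q : Set V → Set V → Prop) (n' : ℕ) (B' : ℕ → Set V)
    (D : Set V) : Prop where
  bef : Bef B' n' = D
  card : ∀ s < n', (Adh B' s).ncard ≤ k
  clique : ∀ s < n', ∀ u ∈ Adh B' s, ∀ v ∈ Adh B' s, u ≠ v → H.Adj u v
  sep : ∀ s < n', ∀ u v, u ∈ B' s → u ∉ Bef B' s → v ∈ Bef B' s → v ∉ B' s → ¬ H.Adj u v
  q : ∀ s < n', Q (B' s) (Adh B' s)

theorem bef_update' {B : ℕ → Set V} {n s : ℕ} (hs : s ≤ n) (X : Set V) :
    Bef (Function.update B n X) s = Bef B s := by
  ext v
  constructor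
  · rintro ⟨i, hi, h⟩
    rw [Function.update_of_ne (by omega)] at h
    exact ⟨i, hi, h⟩
  · rintro ⟨i, hi, h⟩
    refine ⟨i, hi, ?_⟩
    rw [Function.update_of_ne (by omega)]
    exact h

theorem adh_update' {B : ℕ → Set V} {n s : ℕ} (hs : s < n) (X : Set V) :
    Adh (Function.update B n X) s = Adh B s := by
  ext v
  change (v ∈ Function.update B n X s ∧ v ∈ Bef (Function.update B n X) s) ↔
    (v ∈ B s ∧ v ∈ Bef B s)
  rw [Function.update_of_ne (by omega), bef_update' hs.le]

theorem PrefQ.snoc {H : SimpleGraph V} {k : ℕ} {Q : Set V → Set V → Prop} {n' : ℕ}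
    {B' : ℕ → Set V} {D : Set V} (h : PrefQ H k Q n' B' D)
    (X : Set V) (h1 : (X ∩ D).ncard ≤ k)
    (h2 : ∀ u ∈ X ∩ D, ∀ v ∈ X ∩ D, u ≠ v → H.Adj u v)
    (h3 : ∀ u v, u ∈ X → u ∉ D → v ∈ D → v ∉ X → ¬ H.Adj u v) (h4 : Q X (X ∩ D)) :
    PrefQ H k Q (n' + 1) (Function.update B' n' X) (D ∪ X) := by
  have hBn : Function.update B' n' X n' = X := Function.update_self _ _ _
  have hB : ∀ s < n', Function.update B' n' X s = B' s := fun s hs =>
    Function.update_of_ne (by omega) _ _
  have hbn : Bef (Function.update B' n' X) n' = D := by rw [bef_update' le_rfl, h.bef]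
  have hadn : Adh (Function.update B' n' X) n' = X ∩ D := by
    ext v
    change (v ∈ Function.update B' n' X n' ∧ v ∈ Bef (Function.update B' n' X) n') ↔ _
    rw [hBn, hbn]
    rfl
  have hcase : ∀ s < n' + 1, s < n' ∨ s = n' := fun s hs => by omega
  constructor
  · ext v
    constructor
    · rintro ⟨s, hs, hv⟩
      rcases hcase s hs with h' | rfl
      · rw [hB s h'] at hv
        left
        rw [← h.bef]
        exact ⟨s, h', hv⟩
      · rw [hBn] at hv
        exact Or.inr hv
    · rintro (hv | hv)
      · rw [← h.bef] at hv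
        obtain ⟨s, hs, hv⟩ := hv
        exact ⟨s, by omega, by rw [hB s hs]; exact hv⟩
      · exact ⟨n', by omega, by rw [hBn]; exact hv⟩
  · intro s hs
    rcases hcase s hs with h' | rfl
    · rw [adh_update' h']; exact h.card s h'
    · rw [hadn]; exact h1
  · intro s hs
    rcases hcase s hs with h' | rfl
    · rw [adh_update' h']; exact h.clique s h'
    · rw [hadn]; exact h2
  · intro s hs u v
    rcases hcase s hs with h' | rfl
    · rw [hB s h', bef_update' h'.le]; exact h.sep s h' u v
    · rw [hBn, hbn]; exact h3 u v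
  · intro s hs
    rcases hcase s hs with h' | rfl
    · rw [hB s h', adh_update' h']; exact h.q s h'
    · rw [hBn, hadn]; exact h4

/-- the relative form of `NoSep` -/
theorem noSep_of_rel [Finite V] {H : SimpleGraph V} {k : ℕ} {S : Set V}
    (ha : ∀ Y ⊆ S, Y.ncard ≤ k → (∀ u ∈ Y, ∀ v ∈ Y, u ≠ v → H.Adj u v) →
        ∀ P ⊆ S \ Y, P.Nonempty → (∀ u ∈ P, ∀ v ∈ S \ Y, H.Adj u v → v ∈ P) → P = S \ Y) :
    NoSep k (H.induce S) := by
  intro Y hY hYc
  rw [preconn_iff]
  intro P hP hPne hPcl
  have h1 := ha (Subtype.val '' Y) (by rintro _ ⟨y, _, rfl⟩; exact y.2)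
    ((Set.ncard_image_le (Set.toFinite Y)).trans hY) (by
      rintro _ ⟨u, hu, rfl⟩ _ ⟨v, hv', rfl⟩ hne
      exact hYc u hu v hv' fun h => hne (by rw [h]))
    (Subtype.val '' P) (by
      rintro _ ⟨p, hp, rfl⟩
      refine ⟨p.2, ?_⟩
      rintro ⟨y, hy, hyp⟩
      have : y = p := Subtype.ext hyp
      exact hP hp (this ▸ hy)) (hPne.image _) (by
      rintro _ ⟨u, hu, rfl⟩ v ⟨hvB, hvY⟩ hadj
      exact ⟨⟨v, hvB⟩, hPcl u hu ⟨v, hvB⟩ (fun h => hvY ⟨_, h, rfl⟩) hadj, rfl⟩)
  refine hP.antisymm fun v hv' => ?_
  have h2 : (v : V) ∈ Subtype.val '' P := by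
    rw [h1]
    refine ⟨v.2, ?_⟩
    rintro ⟨y, hy, hyv⟩
    have : y = v := Subtype.ext hyv
    exact hv' (this ▸ hy)
  obtain ⟨p, hp, hpv⟩ := h2
  have : p = v := Subtype.ext hpv
  exact this ▸ hp

/-- a piece without separating clique, capped at any clique -/
theorem cap_of_noSep [Finite V] {H : SimpleGraph V} {S R : Set V} (hne : S.Nonempty)
    (hS : NoSep 3 (H.induce S)) (hR3 : R.ncard ≤ 3)
    (hRc : ∀ u ∈ R, ∀ v ∈ R, u ≠ v → H.Adj u v)
    (h5 : ¬ IsMinor (⊤ : SimpleGraph (Fin 5)) (H.induce S)) (h33 : ¬ IsMinor K33 (H.induce S)) :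
    (H.induce S).Connected ∧ ¬ IsMinor K33 (capG (H.induce S) {x | (x : V) ∈ R}) := by
  have hnt : Nonempty S := hne.to_subtype
  have hcard : ({x | (x : V) ∈ R} : Set S).ncard ≤ 3 := by
    refine le_trans ?_ hR3
    rw [← Set.ncard_image_of_injective _ Subtype.val_injective]
    apply Set.ncard_le_ncard _ (Set.toFinite _)
    rintro _ ⟨x, hx, rfl⟩
    exact hx
  have hcl : ∀ u ∈ ({x | (x : V) ∈ R} : Set S), ∀ v ∈ ({x | (x : V) ∈ R} : Set S), u ≠ v →
      (H.induce S).Adj u v := fun u hu v hv huv => hRc u hu v hv fun h => huv (Subtype.ext h)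
  exact ⟨⟨hS.preconnected⟩, faceStmt S (H.induce S) _ hcard hcl (hS _ hcard hcl) h5 h33⟩

/-- **[MIXSUM]** -/
theorem mixSum [Finite V] {H : SimpleGraph V} {n : ℕ} {B : ℕ → Set V} (h : Glued 3 H n B)
    (good : ℕ → Prop)
    (hp : ∀ t < n, good t ∨ (¬ IsMinor (⊤ : SimpleGraph (Fin 5)) (H.induce (B t)) ∧
      ¬ IsMinor K33 (H.induce (B t)))) :
    ∃ (n' : ℕ) (B' : ℕ → Set V), Glued 3 H n' B' ∧ ∀ s < n',
      (∃ t < n, good t ∧ B' s = B t ∧ Adh B' s = Adh B t) ∨
      ((H.induce (B' s)).Connected ∧
        ¬ IsMinor K33 (capG (H.induce (B' s)) {x | (x : V) ∈ Adh B' s})) := by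
  classical
  obtain ⟨Q, hQ⟩ : ∃ Q : Set V → Set V → Prop, ∀ X R, Q X R ↔
      (∃ t < n, good t ∧ X = B t ∧ R = Adh B t) ∨
      ((H.induce X).Connected ∧ ¬ IsMinor K33 (capG (H.induce X) {x | (x : V) ∈ R})) :=
    ⟨fun X R => _, fun X R => Iff.rfl⟩
  have main : ∀ M ≤ n, ∃ (n' : ℕ) (B' : ℕ → Set V), PrefQ H 3 Q n' B' (Bef B M) := by
    intro M
    induction M with
    | zero =>
      intro _
      refine ⟨0, fun _ => ∅, ⟨?_, by omega, by omega, by omega, by omega⟩⟩
      ext x
      constructor <;> rintro ⟨s, hs, _⟩ <;> omega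
    | succ M ih =>
      intro hM
      obtain ⟨n', B', hP⟩ := ih (by omega)
      have hBs : Bef B (M + 1) = Bef B M ∪ B M := by
        ext x
        constructor
        · rintro ⟨s, hs, hx⟩
          by_cases hsM : s = M
          · right; rw [← hsM]; exact hx
          · left; exact ⟨s, by omega, hx⟩
        · rintro (⟨s, hs, hx⟩ | hx)
          · exact ⟨s, by omega, hx⟩
          · exact ⟨M, by omega, hx⟩
      have hXD : B M ∩ Bef B M = Adh B M := rfl
      rcases hp M (by omega) with hg | ⟨h5, h33⟩
      · refine ⟨n' + 1, Function.update B' n' (B M), ?_⟩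
        rw [hBs]
        refine hP.snoc (B M) ?_ ?_ ?_ ?_
        · rw [hXD]; exact h.card M (by omega)
        · rw [hXD]; exact h.clique M (by omega)
        · exact h.sep M (by omega)
        · exact (hQ _ _).2 (Or.inl ⟨M, by omega, hg, rfl, hXD⟩)
      · by_cases hne : (B M).Nonempty
        · obtain ⟨m, C, hm, hC0, hCs, hCv, hCk, hCq, hCe, hCn, hCa⟩ :=
            split_aux H 3 (B M).ncard (B M) le_rfl hne (Adh B M) (fun x hx => hx.1)
              (h.card M (by omega)) (h.clique M (by omega))
          have hcap : ∀ j < m, ∀ R : Set V, R.ncard ≤ 3 →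
              (∀ u ∈ R, ∀ v ∈ R, u ≠ v → H.Adj u v) → Q (C j) R := by
            intro j hj R hR hRc
            refine (hQ _ _).2 (Or.inr (cap_of_noSep (hCn j hj) (noSep_of_rel (hCa j hj)) hR hRc
              (fun hmin => h5 (minor_mono (hCs j hj) hmin))
              (fun hmin => h33 (minor_mono (hCs j hj) hmin))))
          have inner : ∀ j ≤ m, ∃ (n'' : ℕ) (B'' : ℕ → Set V),
              PrefQ H 3 Q n'' B'' (Bef B M ∪ Bef C j) := by
            intro j
            induction j with
            | zero =>
              intro _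
              refine ⟨n', B', ?_⟩
              have : Bef B M ∪ Bef C 0 = Bef B M := by
                ext x
                constructor
                · rintro (hx | ⟨l, hl, _⟩)
                  · exact hx
                  · omega
                · exact Or.inl
              rw [this]
              exact hP
            | succ j ihj =>
              intro hj
              obtain ⟨n'', B'', hR⟩ := ihj (by omega)
              have hjm : j < m := by omega
              have hXD' : C j ∩ (Bef B M ∪ Bef C j) = if j = 0 then Adh B M else Adh C j := by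
                ext x
                by_cases hj0 : j = 0
                · subst hj0
                  rw [if_pos rfl]
                  constructor
                  · rintro ⟨h1, h2 | ⟨l, hl, _⟩⟩
                    · exact ⟨hCs 0 hjm h1, h2⟩
                    · omega
                  · intro hx
                    exact ⟨hC0 hx, Or.inl hx.2⟩
                · rw [if_neg hj0]
                  constructor
                  · rintro ⟨h1, h2 | h2⟩
                    · exact ⟨h1, 0, by omega, hC0 ⟨hCs j hjm h1, h2⟩⟩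
                    · exact ⟨h1, h2⟩
                  · rintro ⟨h1, h2⟩
                    exact ⟨h1, Or.inr h2⟩
              have hk' : (C j ∩ (Bef B M ∪ Bef C j)).ncard ≤ 3 := by
                rw [hXD']
                split_ifs
                · exact h.card M (by omega)
                · exact hCk j hjm
              have hq' : ∀ u ∈ C j ∩ (Bef B M ∪ Bef C j), ∀ v ∈ C j ∩ (Bef B M ∪ Bef C j),
                  u ≠ v → H.Adj u v := by
                rw [hXD']
                split_ifs
                · exact h.clique M (by omega)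
                · exact hCq j hjm
              have hst := hR.snoc (C j) hk' hq' (by
                intro u v hu huD hv hvC hadj
                by_cases hvB : v ∈ B M
                · have hvb : v ∈ Bef C j := by
                    rcases hv with hv | hv
                    · have hv0 : v ∈ C 0 := hC0 ⟨hvB, hv⟩
                      by_cases hj0 : j = 0
                      · subst hj0; exact (hvC hv0).elim
                      · exact ⟨0, by omega, hv0⟩
                    · exact hv
                  exact hCe j hjm u v hu (fun hub => huD (Or.inr hub)) hvb hvC hadj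
                · have hvb : v ∈ Bef B M := by
                    rcases hv with hv | ⟨l, hl, hv⟩
                    · exact hv
                    · exact (hvB (hCs l (by omega) hv)).elim
                  exact h.sep M (by omega) u v (hCs j hjm hu) (fun hub => huD (Or.inl hub)) hvb
                    hvB hadj) (hcap j hjm _ hk' hq')
              refine ⟨n'' + 1, Function.update B'' n'' (C j), ?_⟩
              have hset : Bef B M ∪ Bef C (j + 1) = (Bef B M ∪ Bef C j) ∪ C j := by
                ext x
                constructor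
                · rintro (hx | ⟨l, hl, hx⟩)
                  · exact Or.inl (Or.inl hx)
                  · by_cases hlj : l = j
                    · right; rw [← hlj]; exact hx
                    · left; right; exact ⟨l, by omega, hx⟩
                · rintro ((hx | ⟨l, hl, hx⟩) | hx)
                  · exact Or.inl hx
                  · exact Or.inr ⟨l, by omega, hx⟩
                  · exact Or.inr ⟨j, by omega, hx⟩
              rw [hset]
              exact hst
          obtain ⟨n'', B'', hR⟩ := inner m le_rfl
          refine ⟨n'', B'', ?_⟩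
          have hset : Bef B (M + 1) = Bef B M ∪ Bef C m := by
            rw [hBs]
            ext x
            constructor
            · rintro (hx | hx)
              · exact Or.inl hx
              · obtain ⟨l, hl, h1⟩ := hCv x hx
                exact Or.inr ⟨l, hl, h1⟩
            · rintro (hx | ⟨l, hl, hx⟩)
              · exact Or.inl hx
              · exact Or.inr (hCs l hl hx)
          rw [hset]
          exact hR
        · refine ⟨n', B', ?_⟩
          have hset : Bef B (M + 1) = Bef B M := by
            rw [hBs, Set.not_nonempty_iff_eq_empty.1 hne, Set.union_empty]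
          rw [hset]
          exact hP
  obtain ⟨n', B', hP⟩ := main n le_rfl
  refine ⟨n', B', ⟨?_, hP.card, hP.clique, hP.sep⟩, fun s hs => (hQ _ _).1 (hP.q s hs)⟩
  intro x
  obtain ⟨t, ht, hx⟩ := h.cover x
  have : x ∈ Bef B' n' := by
    rw [hP.bef]
    exact ⟨t, ht, hx⟩
  obtain ⟨s, hs, hxs⟩ := this
  exact ⟨s, hs, hxs⟩

/-- **[MIXSUM]**, in the form of classes -/
theorem cliqueSum_mix [Finite V] {P : ∀ V : Type, SimpleGraph V → Set V → Prop}
    {H : SimpleGraph V}
    (h : CliqueSum 3 (fun V G R => P V G R ∨
      (¬ IsMinor (⊤ : SimpleGraph (Fin 5)) G ∧ ¬ IsMinor K33 G)) H) :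
    CliqueSum 3 (fun V G R => P V G R ∨ (G.Connected ∧ ¬ IsMinor K33 (capG G R))) H := by
  obtain ⟨n, B, hB, hp⟩ := h
  obtain ⟨n', B', hB', hq⟩ := mixSum hB
    (fun t => P (B t) (H.induce (B t)) {x | (x : V) ∈ Adh B t}) hp
  refine ⟨n', B', hB', fun s hs => ?_⟩
  rcases hq s hs with ⟨t, ht, hg, h1, h2⟩ | h1
  · left
    have : ∀ X R : Set V, X = B t → R = Adh B t → P X (H.induce X) {x | (x : V) ∈ R} := by
      rintro X R rfl rfl
      exact hg
    exact this _ _ h1 h2
  · exact Or.inr h1

end Vale.Agent.P235.K5.H803
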