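import Vale.Agent.P235.K5.H803.AnyK

/-!
P235, line SX (helper803).  [ANYK] for `K₅`-minor-free pieces: sums over cliques of any size of
`K₅`-minor-free pieces and of pieces of treewidth at most `w`.
-/

set_option autoImplicit false
set_option linter.all false

namespace Vale.Agent.P235.K5.H803

open SimpleGraph Vale.Agent.P235 Vale.Agent.P235.H134

variable {V : Type}

theorem anyK5_aux [Finite V] {H : SimpleGraph V} {k n w : ℕ} {B : ℕ → Set V} (h : Glued k H n B)
    (hp : ∀ t < n, ¬ IsMinor (⊤ : SimpleGraph (Fin 5)) (H.induce (B t)) ∨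
      TreewidthLE (H.induce (B t)) w) :
    ∀ m : ℕ, ∀ W : Set V, W.ncard ≤ m → W.Nonempty → NS 3 H W →
      (∃ t < n, W ⊆ B t) ∨ TreewidthLE (H.induce W) (max w 3) := by
  intro m
  induction m with
  | zero =>
    intro W hW hne
    exfalso
    have := (Set.ncard_pos (Set.toFinite W)).2 hne
    omega
  | succ m ih =>
    intro W hW hne hW3
    by_cases hk : NS k H W
    · exact Or.inl (in_one_bag h hne (noSep_of_rel hk))
    · right
      unfold NS at hk
      push Not at hk
      obtain ⟨Y, hYW, hYk, hYc, P, hPW, hPne, hPcl, hPneq⟩ := hk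
      have h4 : 4 ≤ Y.ncard := by
        by_contra hlt
        exact hPneq (hW3 Y hYW (by omega) hYc P hPW hPne hPcl)
      obtain ⟨Q, hQ⟩ : ∃ Q : Set V, Q = (W \ Y) \ P := ⟨_, rfl⟩
      have hQne : Q.Nonempty := by
        by_contra h
        rw [Set.not_nonempty_iff_eq_empty] at h
        apply hPneq
        refine hPW.antisymm fun v hv => ?_
        by_contra hvP
        have : v ∈ Q := by rw [hQ]; exact ⟨hv, hvP⟩
        rw [h] at this
        exact this
      have hPQ : ∀ u ∈ P, ∀ v ∈ Q, ¬ H.Adj u v := by
        intro u hu v hv hadj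
        rw [hQ] at hv
        exact hv.2 (hPcl u hu v hv.1 hadj)
      have hcov : ∀ v ∈ W, v ∈ P ∨ v ∈ Y ∨ v ∈ Q := by
        intro v hv
        by_cases h1 : v ∈ Y
        · exact Or.inr (Or.inl h1)
        · by_cases h2 : v ∈ P
          · exact Or.inl h2
          · right; right; rw [hQ]; exact ⟨⟨hv, h1⟩, h2⟩
      have hQW : Q ⊆ W \ Y := by rw [hQ]; exact Set.diff_subset
      have hPQd : ∀ v ∈ P, v ∉ Q := by
        intro v hv h
        rw [hQ] at h
        exact h.2 hv
      have side : ∀ P Q : Set V, P ⊆ W \ Y → Q ⊆ W \ Y → P.Nonempty → Q.Nonempty →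
          (∀ v ∈ P, v ∉ Q) → (∀ v ∈ W, v ∈ P ∨ v ∈ Y ∨ v ∈ Q) →
          (∀ u ∈ P, ∀ v ∈ Q, ¬ H.Adj u v) → TreewidthLE (H.induce (P ∪ Y)) (max w 3) := by
        clear hPW hPne hPcl hPneq hQ hQne hPQ hcov hQW hPQd P Q
        intro P Q hPW hQW hPne hQne hPQd hcov hPQ
        have hW1 : P ∪ Y ⊆ W := Set.union_subset (fun v hv => (hPW hv).1) hYW
        have hc1 : (P ∪ Y).ncard ≤ m := by
          have : (P ∪ Y).ncard < W.ncard := by
            refine Set.ncard_lt_ncard ⟨hW1, fun h => ?_⟩ (Set.toFinite W)
            obtain ⟨q, hq⟩ := hQne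
            rcases h (hQW hq).1 with h1 | h1
            · exact hPQd q h1 hq
            · exact (hQW hq).2 h1
          omega
        have hns : NS 3 H (P ∪ Y) := by
          intro Z hZ hZ3 hZc P1 hP1 hP1ne hP1cl
          by_contra hne1
          have hYZ : ∃ y ∈ Y, y ∉ Z := by
            by_contra hno
            push Not at hno
            have := Set.ncard_le_ncard hno (Set.toFinite Z)
            omega
          by_cases hy : ∃ y ∈ Y, y ∉ Z ∧ y ∈ P1
          · obtain ⟨y, hyY, hyZ, hyP⟩ := hy
            have hYP : ∀ v ∈ Y, v ∉ Z → v ∈ P1 := by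
              intro v hv hvZ
              by_cases hvy : y = v
              · rw [← hvy]; exact hyP
              · exact hP1cl y hyP v ⟨Or.inr hv, hvZ⟩ (hYc y hyY v hv hvy)
            have h1 := hW3 Z (hZ.trans hW1) hZ3 hZc (P1 ∪ Q) (by
                rintro v (hv | hv)
                · exact ⟨hW1 (hP1 hv).1, (hP1 hv).2⟩
                · refine ⟨(hQW hv).1, fun hvZ => ?_⟩
                  rcases hZ hvZ with h2 | h2
                  · exact hPQd v h2 hv
                  · exact (hQW hv).2 h2) (hP1ne.mono Set.subset_union_left) (by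
                rintro u (hu | hu) v hv hadj
                · rcases hcov v hv.1 with h2 | h2 | h2
                  · exact Or.inl (hP1cl u hu v ⟨Or.inl h2, hv.2⟩ hadj)
                  · exact Or.inl (hP1cl u hu v ⟨Or.inr h2, hv.2⟩ hadj)
                  · exact Or.inr h2
                · rcases hcov v hv.1 with h2 | h2 | h2
                  · exact (hPQ v h2 u hu hadj.symm).elim
                  · exact Or.inl (hYP v h2 hv.2)
                  · exact Or.inr h2)
            apply hne1
            refine hP1.antisymm fun v hv => ?_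
            have h2 : v ∈ P1 ∪ Q := by
              rw [h1]; exact ⟨hW1 hv.1, hv.2⟩
            rcases h2 with h2 | h2
            · exact h2
            · exfalso
              rcases hv.1 with h3 | h3
              · exact hPQd v h3 h2
              · exact (hQW h2).2 h3
          · push Not at hy
            obtain ⟨y0, hy0, hy0Z⟩ := hYZ
            have h1 := hW3 Z (hZ.trans hW1) hZ3 hZc P1
              (fun v hv => ⟨hW1 (hP1 hv).1, (hP1 hv).2⟩) hP1ne (by
                intro u hu v hv hadj
                rcases hcov v hv.1 with h2 | h2 | h2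
                · exact hP1cl u hu v ⟨Or.inl h2, hv.2⟩ hadj
                · exact hP1cl u hu v ⟨Or.inr h2, hv.2⟩ hadj
                · exfalso
                  rcases (hP1 hu).1 with h3 | h3
                  · exact hPQ u h3 v h2 hadj
                  · exact hy u h3 (hP1 hu).2 hu)
            have h2 : y0 ∈ P1 := by
              rw [h1]; exact ⟨hYW hy0, hy0Z⟩
            exact hy y0 hy0 hy0Z h2
        rcases ih (P ∪ Y) hc1 (hPne.mono Set.subset_union_left) hns with ⟨t, ht, hsub⟩ | h'
        · rcases hp t ht with h5 | htw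
          · exfalso
            refine k4_lemma hns Set.subset_union_right hYc h4 ?_
              (fun hm => h5 (minIn_iff.2 (hm.mono hsub)))
            obtain ⟨p, hpp⟩ := hPne
            exact ⟨p, Or.inl hpp, (hPW hpp).2⟩
          · refine Vale.Agent.P235.H134.treewidthLE_mono (le_max_left _ _) ?_
            exact htw.comap (fun x : (P ∪ Y : Set V) => (⟨x.1, hsub x.2⟩ : B t))
              (fun x y hxy => Subtype.ext (congrArg (fun z : B t => (z : V)) hxy))
              (fun x y hxy => hxy)
        · exact h'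
      have h1 := side P Q hPW hQW hPne hQne hPQd hcov hPQ
      have h2 := side Q P hQW hPW hQne hPne (fun v hv h => hPQd v h hv)
        (fun v hv => by rcases hcov v hv with h | h | h <;> tauto)
        (fun u hu v hv h => hPQ v hv u hu h.symm)
      refine tw_two (A := {x : W | (x : V) ∈ P ∪ Y}) (B := {x : W | (x : V) ∈ Q ∪ Y}) ?_ ?_ ?_
        ?_ ?_
      · intro x
        rcases hcov x x.2 with h | h | h
        · exact Or.inl (Or.inl h)
        · exact Or.inl (Or.inr h)
        · exact Or.inr (Or.inl h)
      · intro u v hu huB hv hvA hadj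
        have h3 : (u : V) ∈ P := by
          rcases hu with h | h
          · exact h
          · exact (huB (Or.inr h)).elim
        have h4' : (v : V) ∈ Q := by
          rcases hv with h | h
          · exact h
          · exact (hvA (Or.inr h)).elim
        exact hPQ u h3 v h4' hadj
      · rintro u ⟨hu1, hu2⟩ v ⟨hv1, hv2⟩ huv
        have hmem : ∀ x : V, x ∈ P ∪ Y → x ∈ Q ∪ Y → x ∈ Y := by
          rintro x (hx | hx) (hx' | hx')
          · exact (hPQd x hx hx').elim
          · exact hx'
          · exact hx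
          · exact hx
        exact hYc u (hmem u hu1 hu2) v (hmem v hv1 hv2) fun h => huv (Subtype.ext h)
      · exact h1.comap (fun x : ({x : W | (x : V) ∈ P ∪ Y} : Set W) =>
            (⟨x.1.1, x.2⟩ : (P ∪ Y : Set V)))
          (fun x y hxy => Subtype.ext (Subtype.ext
            (congrArg (fun z : (P ∪ Y : Set V) => (z : V)) hxy)))
          (fun x y hxy => hxy)
      · exact h2.comap (fun x : ({x : W | (x : V) ∈ Q ∪ Y} : Set W) =>
            (⟨x.1.1, x.2⟩ : (Q ∪ Y : Set V)))
          (fun x y hxy => Subtype.ext (Subtype.ext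
            (congrArg (fun z : (Q ∪ Y : Set V) => (z : V)) hxy)))
          (fun x y hxy => hxy)

/-- **[ANYK]**, general form: atoms of a sum over cliques of any size of `K₅`-minor-free pieces and
of pieces of treewidth at most `w` -/
theorem anyK5_atoms [Finite V] {H : SimpleGraph V} {k n w : ℕ} {B : ℕ → Set V}
    (h : Glued k H n B) (hp : ∀ t < n, ¬ IsMinor (⊤ : SimpleGraph (Fin 5)) (H.induce (B t)) ∨
      TreewidthLE (H.induce (B t)) w) :
    ∃ (n' : ℕ) (B' : ℕ → Set V), Glued 3 H n' B' ∧ (∀ s < n', (B' s).Nonempty) ∧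
      (∀ s < n', NoSep 3 (H.induce (B' s))) ∧ ∀ s < n',
      (∃ t < n, B' s ⊆ B t) ∨ TreewidthLE (H.induce (B' s)) (max w 3) := by
  rcases isEmpty_or_nonempty V with hV | hV
  · exact ⟨0, fun _ => ∅, ⟨fun v => (hV.false v).elim, by omega, by omega, by omega⟩, by omega,
      by omega, by omega⟩
  · obtain ⟨m, C, hm, _, _, hv, hk, hq, he, hne, ha⟩ :=
      split_aux H 3 (Set.univ : Set V).ncard Set.univ le_rfl Set.univ_nonempty ∅
        (Set.empty_subset _) (by simp) (by simp)
    exact ⟨m, C, ⟨fun v => hv v trivial, hk, hq, he⟩, hne, fun s hs => noSep_of_rel (ha s hs),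
      fun s hs => anyK5_aux h hp _ (C s) le_rfl (hne s hs) (ha s hs)⟩

/-- **[ANYK]** for `K₅`-minor-free pieces -/
theorem anyK5 [Finite V] {H : SimpleGraph V} {k n w : ℕ} {B : ℕ → Set V} (h : Glued k H n B)
    (hp : ∀ t < n, ¬ IsMinor (⊤ : SimpleGraph (Fin 5)) (H.induce (B t)) ∨
      TreewidthLE (H.induce (B t)) w) :
    ∃ (n' : ℕ) (B' : ℕ → Set V), Glued 3 H n' B' ∧ (∀ s < n', (B' s).Nonempty) ∧
      (∀ s < n', (H.induce (B' s)).Connected) ∧
      ∀ s < n', ¬ IsMinor (⊤ : SimpleGraph (Fin 5)) (H.induce (B' s)) ∨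
        TreewidthLE (H.induce (B' s)) (max w 3) := by
  obtain ⟨m, C, hC, hne, hno, ha⟩ := anyK5_atoms h hp
  refine ⟨m, C, hC, hne, fun s hs => ?_, fun s hs => ?_⟩
  · have hnt : Nonempty (C s) := (hne s hs).to_subtype
    exact ⟨(hno s hs).preconnected⟩
  · rcases ha s hs with ⟨t, ht, hsub⟩ | h'
    · rcases hp t ht with h5 | htw
      · exact Or.inl fun hmin => h5 (minor_mono hsub hmin)
      · right
        refine Vale.Agent.P235.H134.treewidthLE_mono (le_max_left _ _) ?_
        exact htw.comap (fun x : C s => (⟨x.1, hsub x.2⟩ : B t))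
          (fun x y hxy => Subtype.ext (congrArg (fun z : B t => (z : V)) hxy))
          (fun x y hxy => hxy)
    · exact Or.inr h'

end Vale.Agent.P235.K5.H803
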