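import Vale.Agent.P235.K5.H803.W4
import Vale.Agent.P235.H56.Defs

/-!
P235, K5 line (helper803).  Sums of `K₅`- and `K_{3,3}`-minor-free graphs over arbitrary cliques
with at most three vertices are sums of rooted pieces whose root can be capped.
-/

set_option autoImplicit false
set_option linter.all false

namespace Vale.Agent.P235.K5.H803

open SimpleGraph Vale.Agent.P235 Vale.Agent.P235.H134 Vale.Agent.P235.H56
open Vale.Agent.P235.H341W (capG)

variable {V : Type}

/-- [FACE] for all cliques with at most three vertices -/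
def FaceStmt : Prop :=
  ∀ (V : Type) [Finite V] (G : SimpleGraph V) (R : Set V), R.ncard ≤ 3 →
    (∀ u ∈ R, ∀ v ∈ R, u ≠ v → G.Adj u v) → (G.induce Rᶜ).Preconnected →
    ¬ IsMinor (⊤ : SimpleGraph (Fin 5)) G → ¬ IsMinor K33 G → ¬ IsMinor K33 (capG G R)

/-- minors of induced subgraphs -/
theorem minor_mono {κ : Type} {K : SimpleGraph κ} {H : SimpleGraph V} {T W : Set V} (hTW : T ⊆ W)
    (h : IsMinor K (H.induce T)) : IsMinor K (H.induce W) := by
  obtain ⟨μ, h1, h2, h3⟩ := h
  have hval : ∀ a, (H.induce (Subtype.val '' μ a)).Connected := by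
    intro a
    have h4 : {x : T | (x : V) ∈ Subtype.val '' μ a} = μ a := by
      ext x
      constructor
      · rintro ⟨y, hy, hyx⟩
        have : y = x := Subtype.ext hyx
        exact this ▸ hy
      · intro hx; exact ⟨x, hx, rfl⟩
    have h5 := (conn_val (H := H) (W := T) (S := Subtype.val '' μ a)
      (by rintro _ ⟨x, _, rfl⟩; exact x.2)).1
    rw [h4] at h5
    exact h5 (h1 a)
  refine ⟨fun a => {x : W | (x : V) ∈ Subtype.val '' μ a}, fun a => ?_, fun a b hab => ?_,
    fun a b hab => ?_⟩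
  · exact (conn_val (by rintro _ ⟨x, _, rfl⟩; exact hTW x.2)).2 (hval a)
  · rw [Set.disjoint_left]
    rintro x ⟨p, hp, hpx⟩ ⟨q, hq, hqx⟩
    have : q = p := Subtype.ext (hqx.trans hpx.symm)
    exact Set.disjoint_left.1 (h2 a b hab) hp (this ▸ hq)
  · obtain ⟨x, hx, y, hy, hadj⟩ := h3 a b hab
    exact ⟨⟨x.1, hTW x.2⟩, ⟨x, hx, rfl⟩, ⟨y.1, hTW y.2⟩, ⟨y, hy, rfl⟩, hadj⟩

/-- minors of induced subgraphs are minors -/
theorem minor_of_induce {κ : Type} {K : SimpleGraph κ} {H : SimpleGraph V} {T : Set V}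
    (h : IsMinor K (H.induce T)) : IsMinor K H := by
  obtain ⟨μ, h1, h2, h3⟩ := h
  refine ⟨fun a => Subtype.val '' μ a, fun a => ?_, fun a b hab => ?_, fun a b hab => ?_⟩
  · have h4 : {x : T | (x : V) ∈ Subtype.val '' μ a} = μ a := by
      ext x
      constructor
      · rintro ⟨y, hy, hyx⟩
        have : y = x := Subtype.ext hyx
        exact this ▸ hy
      · intro hx; exact ⟨x, hx, rfl⟩
    have h5 := (conn_val (H := H) (W := T) (S := Subtype.val '' μ a)
      (by rintro _ ⟨x, _, rfl⟩; exact x.2)).1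
    rw [h4] at h5
    exact h5 (h1 a)
  · rw [Set.disjoint_left]
    rintro _ ⟨x, hx, rfl⟩ ⟨y, hy, hyx⟩
    have : y = x := Subtype.ext hyx
    exact Set.disjoint_left.1 (h2 a b hab) hx (this ▸ hy)
  · obtain ⟨x, hx, y, hy, hadj⟩ := h3 a b hab
    exact ⟨x, ⟨x, hx, rfl⟩, y, ⟨y, hy, rfl⟩, hadj⟩

/-- a set without separating clique lies in one bag -/
theorem in_one_bag [Finite V] {k : ℕ} {H : SimpleGraph V} {n : ℕ} {B : ℕ → Set V}
    (h : Glued k H n B) {T : Set V} (hne : T.Nonempty) (hT : NoSep k (H.induce T)) :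
    ∃ t < n, T ⊆ B t := by
  have key : ∀ m ≤ n, T ⊆ Bef B m → ∃ t < m, T ⊆ B t := by
    intro m
    induction m with
    | zero =>
      intro _ hTB
      obtain ⟨v, hv⟩ := hne
      obtain ⟨s, hs, _⟩ := hTB hv
      omega
    | succ m ih =>
      intro hm hTB
      by_cases h1 : T ⊆ Bef B m
      · obtain ⟨t, ht, h2⟩ := ih (by omega) h1
        exact ⟨t, by omega, h2⟩
      · refine ⟨m, by omega, ?_⟩
        rw [Set.not_subset] at h1
        obtain ⟨c, hcT, hcm⟩ := h1
        have mem : ∀ v ∈ T, v ∈ B m ∨ v ∈ Bef B m := by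
          intro v hv
          obtain ⟨s, hs, h1⟩ := hTB hv
          by_cases hsm : s = m
          · left; rw [← hsm]; exact h1
          · right; exact ⟨s, by omega, h1⟩
        have hcB : c ∈ B m := (mem c hcT).resolve_right hcm
        have h2 := hT {x : T | (x : V) ∈ Adh B m} (by
          refine le_trans ?_ (h.card m (by omega))
          rw [← Set.ncard_image_of_injective _ Subtype.val_injective]
          apply Set.ncard_le_ncard _ (Set.toFinite _)
          rintro _ ⟨x, hx, rfl⟩
          exact hx) (by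
          intro u hu v hv huv
          exact h.clique m (by omega) u hu v hv fun h => huv (Subtype.ext h))
        rw [preconn_iff] at h2
        have h3 := h2 {x : T | (x : V) ∈ B m ∧ (x : V) ∉ Bef B m} (by
          rintro x ⟨hx, hx'⟩ hxA
          exact hx' hxA.2) ⟨⟨c, hcT⟩, hcB, hcm⟩ (by
          rintro u ⟨hu, hu'⟩ v hv hadj
          have hadj' : H.Adj u v := hadj
          by_cases hvB : (v : V) ∈ B m
          · exact ⟨hvB, fun hvb => hv ⟨hvB, hvb⟩⟩
          · exact (h.sep m (by omega) u v hu hu' ((mem v v.2).resolve_left hvB) hvB hadj').elim)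
        intro v hv
        by_contra hvB
        have h4 : (⟨v, hv⟩ : T) ∈ ({x : T | (x : V) ∈ Adh B m}ᶜ : Set T) := fun h => hvB h.1
        rw [← h3] at h4
        exact hvB h4.1
  obtain ⟨t, ht, h1⟩ := key n le_rfl fun v _ => by
    obtain ⟨t, ht, h1⟩ := h.cover v
    exact ⟨t, ht, h1⟩
  exact ⟨t, ht, h1⟩

/-- a graph without separating clique is preconnected -/
theorem NoSep.preconnected {k : ℕ} {G : SimpleGraph V} (h : NoSep k G) : G.Preconnected := by
  have h1 := h ∅ (by simp) (by simp)
  rw [preconn_iff] at h1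
  have h2 : (G.induce Set.univ).Preconnected := by
    rw [preconn_iff]
    intro P hP hne hcl
    have h3 := h1 P (by simp) hne fun u hu v _ hadj => hcl u hu v trivial hadj
    rw [h3]; simp
  intro a b
  obtain ⟨w⟩ := h2 ⟨a, trivial⟩ ⟨b, trivial⟩
  exact ⟨w.map ⟨Subtype.val, fun h => h⟩⟩

/-- **the class of the pieces does not need the facial condition** -/
theorem planar_sum (hF : FaceStmt) [Finite V] {H : SimpleGraph V} {n : ℕ} {B : ℕ → Set V}
    (h : Glued 3 H n B) (h5 : ∀ t < n, ¬ IsMinor (⊤ : SimpleGraph (Fin 5)) (H.induce (B t)))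
    (h33 : ∀ t < n, ¬ IsMinor K33 (H.induce (B t))) :
    CliqueSum 3 (fun V G R => G.Connected ∧ ¬ IsMinor K33 (capG G R)) H := by
  rcases isEmpty_or_nonempty V with hV | hV
  · refine ⟨0, fun _ => ∅, ⟨fun v => (hV.false v).elim, fun t ht => by omega, fun t ht => by omega,
      fun t ht => by omega⟩, fun t ht => by omega⟩
  · obtain ⟨m, C, hm, _, hC, hne, hno⟩ := split 3 H ∅ (by simp) (by simp)
    refine ⟨m, C, hC, fun t ht => ?_⟩
    obtain ⟨s, hs, hsub⟩ := in_one_bag h (hne t ht) (hno t ht)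
    have hnt : Nonempty (C t) := (hne t ht).to_subtype
    refine ⟨⟨(hno t ht).preconnected⟩, ?_⟩
    refine hF (C t) (H.induce (C t)) {x | (x : V) ∈ Adh C t} ?_ ?_ ?_ ?_ ?_
    · refine le_trans ?_ (hC.card t ht)
      rw [← Set.ncard_image_of_injective _ Subtype.val_injective]
      apply Set.ncard_le_ncard _ (Set.toFinite _)
      rintro _ ⟨x, hx, rfl⟩
      exact hx
    · intro u hu v hv huv
      exact hC.clique t ht u hu v hv fun h => huv (Subtype.ext h)
    · refine hno t ht _ ?_ ?_
      · refine le_trans ?_ (hC.card t ht)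
        rw [← Set.ncard_image_of_injective _ Subtype.val_injective]
        apply Set.ncard_le_ncard _ (Set.toFinite _)
        rintro _ ⟨x, hx, rfl⟩
        exact hx
      · intro u hu v hv huv
        exact hC.clique t ht u hu v hv fun h => huv (Subtype.ext h)
    · exact fun hmin => h5 s hs (minor_mono hsub hmin)
    · exact fun hmin => h33 s hs (minor_mono hsub hmin)

end Vale.Agent.P235.K5.H803
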