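import Vale.Agent.P235.K5.H803.Split
import Vale.Agent.P235.H134.Grid.Defs

/-!
P235, K5 line, row [W4] (helper803).  A `K₅` minor of a sum over a clique with at most three
vertices is a minor of one of the two sides.
-/

set_option autoImplicit false
set_option linter.all false

namespace Vale.Agent.P235.K5.H803

open SimpleGraph Vale.Agent.P235.H134

variable {V : Type}

/-- a `K_m` model inside the set `W` -/
def MinIn (m : ℕ) {V : Type} (H : SimpleGraph V) (W : Set V) : Prop :=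
  ∃ μ : Fin m → Set V, (∀ a, μ a ⊆ W) ∧ (∀ a, (H.induce (μ a)).Connected) ∧
    (∀ a b, a ≠ b → Disjoint (μ a) (μ b)) ∧ ∀ a b, a ≠ b → ∃ x ∈ μ a, ∃ y ∈ μ b, H.Adj x y

/-- connected sets of an induced subgraph -/
theorem conn_val {H : SimpleGraph V} {W S : Set V} (hS : S ⊆ W) :
    ((H.induce W).induce {x : W | (x : V) ∈ S}).Connected ↔ (H.induce S).Connected := by
  rw [conn_iff, conn_iff]
  constructor
  · rintro ⟨⟨a, ha⟩, h⟩
    refine ⟨⟨a.1, ha⟩, fun P hP ⟨p, hp⟩ hcl => ?_⟩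
    have h1 := h {x : W | (x : V) ∈ P} (fun x hx => hP hx) ⟨⟨p, hS (hP hp)⟩, hp⟩
      (fun u hu v hv hadj => hcl u hu v hv hadj)
    refine hP.antisymm fun v hv => ?_
    have h2 : (⟨v, hS hv⟩ : W) ∈ {x : W | (x : V) ∈ P} := by
      rw [h1]; exact hv
    exact h2
  · rintro ⟨⟨a, ha⟩, h⟩
    refine ⟨⟨⟨a, hS ha⟩, ha⟩, fun P hP ⟨p, hp⟩ hcl => ?_⟩
    have h1 := h (Subtype.val '' P) (by rintro _ ⟨x, hx, rfl⟩; exact hP hx) ⟨p.1, p, hp, rfl⟩ (by
      rintro _ ⟨u, hu, rfl⟩ v hv hadj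
      exact ⟨⟨v, hS hv⟩, hcl u hu ⟨v, hS hv⟩ hv hadj, rfl⟩)
    refine hP.antisymm fun v hv => ?_
    have h2 : (v : V) ∈ Subtype.val '' P := by
      rw [h1]; exact hv
    obtain ⟨q, hq, hqv⟩ := h2
    have : q = v := Subtype.ext hqv
    exact this ▸ hq

theorem minIn_iff {m : ℕ} {H : SimpleGraph V} {W : Set V} :
    IsMinor (⊤ : SimpleGraph (Fin m)) (H.induce W) ↔ MinIn m H W := by
  constructor
  · rintro ⟨μ, h1, h2, h3⟩
    refine ⟨fun a => Subtype.val '' μ a, fun a => by rintro _ ⟨x, _, rfl⟩; exact x.2, fun a => ?_,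
      fun a b hab => ?_, fun a b hab => ?_⟩
    · have h4 : {x : W | (x : V) ∈ Subtype.val '' μ a} = μ a := by
        ext x
        constructor
        · rintro ⟨y, hy, hyx⟩
          have : y = x := Subtype.ext hyx
          exact this ▸ hy
        · intro hx; exact ⟨x, hx, rfl⟩
      have h5 := (conn_val (H := H) (W := W) (S := Subtype.val '' μ a)
        (by rintro _ ⟨x, _, rfl⟩; exact x.2)).1
      rw [h4] at h5
      exact h5 (h1 a)
    · rw [Set.disjoint_left]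
      rintro _ ⟨x, hx, rfl⟩ ⟨y, hy, hyx⟩
      have : y = x := Subtype.ext hyx
      exact Set.disjoint_left.1 (h2 a b hab) hx (this ▸ hy)
    · obtain ⟨x, hx, y, hy, hadj⟩ := h3 a b hab
      exact ⟨x, ⟨x, hx, rfl⟩, y, ⟨y, hy, rfl⟩, hadj⟩
  · rintro ⟨μ, h0, h1, h2, h3⟩
    refine ⟨fun a => {x : W | (x : V) ∈ μ a}, fun a => (conn_val (h0 a)).2 (h1 a), fun a b hab => ?_,
      fun a b hab => ?_⟩
    · rw [Set.disjoint_left]
      intro x hx hy
      exact Set.disjoint_left.1 (h2 a b hab) hx hy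
    · obtain ⟨x, hx, y, hy, hadj⟩ := h3 a b hab
      exact ⟨⟨x, h0 a hx⟩, hx, ⟨y, h0 b hy⟩, hy, hadj⟩

theorem minIn_univ {m : ℕ} {H : SimpleGraph V} :
    IsMinor (⊤ : SimpleGraph (Fin m)) H ↔ MinIn m H Set.univ := by
  constructor
  · rintro ⟨μ, h1, h2, h3⟩
    exact ⟨μ, fun _ => Set.subset_univ _, h1, h2, fun a b hab => h3 a b hab⟩
  · rintro ⟨μ, _, h1, h2, h3⟩
    exact ⟨μ, h1, h2, fun a b hab => h3 a b hab⟩

theorem MinIn.mono {m : ℕ} {H : SimpleGraph V} {W W' : Set V} (h : MinIn m H W) (hW : W ⊆ W') :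
    MinIn m H W' := by
  obtain ⟨μ, h0, h⟩ := h
  exact ⟨μ, fun a => (h0 a).trans hW, h⟩

/-- a connected set which meets both sides meets the middle -/
theorem meets {H : SimpleGraph V} {A B M : Set V} (hM : M ⊆ A ∪ B)
    (hs : ∀ u ∈ A, u ∉ B → ∀ v ∈ B, v ∉ A → ¬ H.Adj u v) (hc : (H.induce M).Connected)
    (hA : (M ∩ A).Nonempty) (hB : (M ∩ B).Nonempty) : (M ∩ (A ∩ B)).Nonempty := by
  by_contra hno
  rw [Set.not_nonempty_iff_eq_empty] at hno
  have hno' : ∀ v ∈ M, v ∈ A → v ∉ B := by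
    intro v hv h1 h2
    have : v ∈ M ∩ (A ∩ B) := ⟨hv, h1, h2⟩
    rw [hno] at this
    exact this
  have h1 := (conn_iff.1 hc).2 (M ∩ A) Set.inter_subset_left hA (by
    rintro u ⟨hu, huA⟩ v hv hadj
    refine ⟨hv, ?_⟩
    by_contra hvA
    have hvB : v ∈ B := (hM hv).resolve_left hvA
    exact hs u huA (hno' u hu huA) v hvB hvA hadj)
  obtain ⟨v, hv, hvB⟩ := hB
  have : v ∈ M ∩ A := by rw [h1]; exact hv
  exact hno' v hv this.2 hvB

/-- the trace of a connected set on one side -/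
theorem conn_inter {H : SimpleGraph V} {A B M : Set V} (hM : M ⊆ A ∪ B)
    (hs : ∀ u ∈ A, u ∉ B → ∀ v ∈ B, v ∉ A → ¬ H.Adj u v)
    (hc : ∀ u ∈ A ∩ B, ∀ v ∈ A ∩ B, u ≠ v → H.Adj u v) (h : (H.induce M).Connected)
    (hA : (M ∩ A).Nonempty) : (H.induce (M ∩ A)).Connected := by
  rw [conn_iff]
  refine ⟨hA, fun P hP hPne hcl => ?_⟩
  by_cases hx : ∃ x ∈ P, x ∈ B
  · obtain ⟨x, hxP, hxB⟩ := hx
    have h1 := (conn_iff.1 h).2 (P ∪ (M \ A)) (by
      rintro v (hv | hv)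
      · exact (hP hv).1
      · exact hv.1) (hPne.mono Set.subset_union_left) (by
      rintro u hu v hv hadj
      by_cases hvA : v ∈ A
      · left
        rcases hu with hu | hu
        · exact hcl u hu v ⟨hv, hvA⟩ hadj
        · have huB : u ∈ B := (hM hu.1).resolve_left hu.2
          have hvB : v ∈ B := by
            by_contra hvB
            exact hs v hvA hvB u huB hu.2 hadj.symm
          by_cases hvx : v = x
          · rw [hvx]; exact hxP
          · exact hcl x hxP v ⟨hv, hvA⟩ (hc x ⟨(hP hxP).2, hxB⟩ v ⟨hvA, hvB⟩ (Ne.symm hvx))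
      · right; exact ⟨hv, hvA⟩)
    refine hP.antisymm fun v hv => ?_
    have h2 : v ∈ P ∪ (M \ A) := by rw [h1]; exact hv.1
    rcases h2 with h2 | h2
    · exact h2
    · exact (h2.2 hv.2).elim
  · push Not at hx
    have h1 := (conn_iff.1 h).2 P (fun v hv => (hP hv).1) hPne (by
      intro u hu v hv hadj
      by_cases hvA : v ∈ A
      · exact hcl u hu v ⟨hv, hvA⟩ hadj
      · exfalso
        have hvB : v ∈ B := (hM hv).resolve_left hvA
        exact hs u (hP hu).2 (hx u hu) v hvB hvA hadj)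
    refine hP.antisymm fun v hv => ?_
    rw [h1]; exact hv.1

/-- all sets of the model touch a set which is inside `A ∖ B` -/
theorem side {m : ℕ} {H : SimpleGraph V} {A B : Set V}
    (hs : ∀ u ∈ A, u ∉ B → ∀ v ∈ B, v ∉ A → ¬ H.Adj u v)
    (hc : ∀ u ∈ A ∩ B, ∀ v ∈ A ∩ B, u ≠ v → H.Adj u v) {μ : Fin m → Set V}
    (h0 : ∀ a, μ a ⊆ A ∪ B) (h1 : ∀ a, (H.induce (μ a)).Connected)
    (h2 : ∀ a b, a ≠ b → Disjoint (μ a) (μ b))
    (h3 : ∀ a b, a ≠ b → ∃ x ∈ μ a, ∃ y ∈ μ b, H.Adj x y) (i : Fin m)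
    (hi : ∀ v ∈ μ i, v ∈ A ∧ v ∉ B) : MinIn m H A := by
  have hne : ∀ a, (μ a ∩ A).Nonempty := by
    intro a
    by_cases hai : a = i
    · subst hai
      obtain ⟨v, hv⟩ := (conn_iff.1 (h1 a)).1
      exact ⟨v, hv, (hi v hv).1⟩
    · obtain ⟨x, hx, y, hy, hadj⟩ := h3 a i hai
      refine ⟨x, hx, ?_⟩
      by_contra hxA
      have hxB : x ∈ B := (h0 a hx).resolve_left hxA
      exact hs y (hi y hy).1 (hi y hy).2 x hxB hxA hadj.symm
  refine ⟨fun a => μ a ∩ A, fun a => Set.inter_subset_right,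
    fun a => conn_inter (h0 a) hs hc (h1 a) (hne a),
    fun a b hab => (h2 a b hab).mono Set.inter_subset_left Set.inter_subset_left,
    fun a b hab => ?_⟩
  obtain ⟨x, hx, y, hy, hadj⟩ := h3 a b hab
  by_cases hxA : x ∈ A
  · by_cases hyA : y ∈ A
    · exact ⟨x, ⟨hx, hxA⟩, y, ⟨hy, hyA⟩, hadj⟩
    · have hyB : y ∈ B := (h0 b hy).resolve_left hyA
      have hxB : x ∈ B := by
        by_contra hxB
        exact hs x hxA hxB y hyB hyA hadj
      obtain ⟨x', hx', hx'A, hx'B⟩ := meets (h0 a) hs (h1 a) (hne a) ⟨x, hx, hxB⟩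
      obtain ⟨y', hy', hy'A, hy'B⟩ := meets (h0 b) hs (h1 b) (hne b) ⟨y, hy, hyB⟩
      refine ⟨x', ⟨hx', hx'A⟩, y', ⟨hy', hy'A⟩, hc x' ⟨hx'A, hx'B⟩ y' ⟨hy'A, hy'B⟩ ?_⟩
      rintro rfl
      exact Set.disjoint_left.1 (h2 a b hab) hx' hy'
  · have hxB : x ∈ B := (h0 a hx).resolve_left hxA
    have hyB : y ∈ B := by
      by_contra hyB
      have hyA : y ∈ A := (h0 b hy).resolve_right hyB
      exact hs y hyA hyB x hxB hxA hadj.symm
    obtain ⟨x', hx', hx'A, hx'B⟩ := meets (h0 a) hs (h1 a) (hne a) ⟨x, hx, hxB⟩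
    obtain ⟨y', hy', hy'A, hy'B⟩ := meets (h0 b) hs (h1 b) (hne b) ⟨y, hy, hyB⟩
    refine ⟨x', ⟨hx', hx'A⟩, y', ⟨hy', hy'A⟩, hc x' ⟨hx'A, hx'B⟩ y' ⟨hy'A, hy'B⟩ ?_⟩
    rintro rfl
    exact Set.disjoint_left.1 (h2 a b hab) hx' hy'

/-- a `K_m` model in `A ∪ B`, glued over a clique with fewer than `m` vertices, is on one side -/
theorem minIn_union [Finite V] {m : ℕ} {H : SimpleGraph V} {A B : Set V}
    (hk : (A ∩ B).ncard < m)
    (hs : ∀ u ∈ A, u ∉ B → ∀ v ∈ B, v ∉ A → ¬ H.Adj u v)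
    (hc : ∀ u ∈ A ∩ B, ∀ v ∈ A ∩ B, u ≠ v → H.Adj u v) (h : MinIn m H (A ∪ B)) :
    MinIn m H A ∨ MinIn m H B := by
  obtain ⟨μ, h0, h1, h2, h3⟩ := h
  obtain ⟨i, hi⟩ : ∃ i, ∀ v ∈ μ i, v ∉ A ∩ B := by
    by_contra hno
    push Not at hno
    choose f hf1 hf2 using hno
    have hinj : Function.Injective f := by
      intro a b hab
      by_contra hne
      exact Set.disjoint_left.1 (h2 a b hne) (hf1 a) (hab ▸ hf1 b)
    have h4 : (Set.range f).ncard ≤ (A ∩ B).ncard := by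
      apply Set.ncard_le_ncard _ (Set.toFinite _)
      rintro _ ⟨a, rfl⟩
      exact hf2 a
    rw [← Set.image_univ, Set.ncard_image_of_injective _ hinj, Set.ncard_univ, Nat.card_fin] at h4
    omega
  by_cases hA : (μ i ∩ A).Nonempty
  · left
    refine side hs hc h0 h1 h2 h3 i fun v hv => ?_
    have hvB : v ∉ B := by
      intro hvB
      obtain ⟨w, hw, hw'⟩ := meets (h0 i) hs (h1 i) hA ⟨v, hv, hvB⟩
      exact hi w hw hw'
    exact ⟨(h0 i hv).resolve_right hvB, hvB⟩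
  · right
    have hs' : ∀ u ∈ B, u ∉ A → ∀ v ∈ A, v ∉ B → ¬ H.Adj u v :=
      fun u hu hu' v hv hv' hadj => hs v hv hv' u hu hu' hadj.symm
    have hc' : ∀ u ∈ B ∩ A, ∀ v ∈ B ∩ A, u ≠ v → H.Adj u v :=
      fun u hu v hv hne => hc u ⟨hu.2, hu.1⟩ v ⟨hv.2, hv.1⟩ hne
    refine side hs' hc' (fun a => by rw [Set.union_comm]; exact h0 a) h1 h2 h3 i fun v hv => ?_
    have hvA : v ∉ A := fun h => hA ⟨v, hv, h⟩
    exact ⟨(h0 i hv).resolve_left hvA, hvA⟩

/-- [W4] -/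
theorem w4 [Finite V] {H : SimpleGraph V} (A B : Set V) (hAB : A ∪ B = Set.univ)
    (hk : (A ∩ B).ncard ≤ 3) (hc : ∀ u ∈ A ∩ B, ∀ v ∈ A ∩ B, u ≠ v → H.Adj u v)
    (hs : ∀ u ∈ A, u ∉ B → ∀ v ∈ B, v ∉ A → ¬ H.Adj u v)
    (h5 : IsMinor (⊤ : SimpleGraph (Fin 5)) H) :
    IsMinor (⊤ : SimpleGraph (Fin 5)) (H.induce A) ∨
      IsMinor (⊤ : SimpleGraph (Fin 5)) (H.induce B) := by
  rw [minIn_iff, minIn_iff]
  rw [minIn_univ, ← hAB] at h5
  exact minIn_union (by omega) hs hc h5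

theorem glued_minIn [Finite V] {k m : ℕ} (hkm : k < m) {H : SimpleGraph V} {n : ℕ}
    {B : ℕ → Set V} (h : Glued k H n B) (h5 : IsMinor (⊤ : SimpleGraph (Fin m)) H) :
    ∃ t < n, IsMinor (⊤ : SimpleGraph (Fin m)) (H.induce (B t)) := by
  have key : ∀ j ≤ n, MinIn m H (Bef B j) → ∃ t < j, MinIn m H (B t) := by
    intro j
    induction j with
    | zero =>
      rintro _ ⟨μ, h0, h1, _⟩
      have hm : 0 < m := by omega
      obtain ⟨v, hv⟩ := (conn_iff.1 (h1 ⟨0, hm⟩)).1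
      obtain ⟨s, hs, _⟩ := h0 _ hv
      omega
    | succ j ih =>
      intro hj h5
      have hu : Bef B (j + 1) = Bef B j ∪ B j := by
        ext v
        constructor
        · rintro ⟨s, hs, h⟩
          by_cases hsj : s = j
          · right; rw [← hsj]; exact h
          · left; exact ⟨s, by omega, h⟩
        · rintro (⟨s, hs, h⟩ | h)
          · exact ⟨s, by omega, h⟩
          · exact ⟨j, by omega, h⟩
      have hi : Bef B j ∩ B j = Adh B j := by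
        ext v
        exact and_comm
      rw [hu] at h5
      rcases minIn_union (by rw [hi]; exact lt_of_le_of_lt (h.card j (by omega)) hkm)
        (fun u hu' hu'' v hv hv' hadj => h.sep j (by omega) v u hv hv' hu' hu'' hadj.symm)
        (by rw [hi]; exact h.clique j (by omega)) h5 with h6 | h6
      · obtain ⟨t, ht, h7⟩ := ih (by omega) h6
        exact ⟨t, by omega, h7⟩
      · exact ⟨j, by omega, h6⟩
  have hall : Bef B n = Set.univ := by
    ext v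
    simp only [Set.mem_univ, iff_true]
    obtain ⟨t, ht, h1⟩ := h.cover v
    exact ⟨t, ht, h1⟩
  rw [minIn_univ, ← hall] at h5
  obtain ⟨t, ht, h6⟩ := key n le_rfl h5
  exact ⟨t, ht, minIn_iff.2 h6⟩

theorem glued_minor [Finite V] {H : SimpleGraph V} {n : ℕ} {B : ℕ → Set V} (h : Glued 3 H n B)
    (h5 : IsMinor (⊤ : SimpleGraph (Fin 5)) H) :
    ∃ t < n, IsMinor (⊤ : SimpleGraph (Fin 5)) (H.induce (B t)) :=
  glued_minIn (by omega) h h5

end Vale.Agent.P235.K5.H803
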